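import Vale.Agent.P195.Cert.Data

/-!
P195 certificates: the kernel checks the twelve homotopies.
-/

namespace P195.Cert

open P195.Algebra

theorem check_all :
    ∀ D < 3, ∀ a' a : Fin 2, check a' a D (Data.table a' a D) = true := by decide +kernel

end P195.Cert
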