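import Vale.Agent.P195.Cert.Defs

/-!
P195 certificates: the cone of `Φ` modulo `u` on monomials, computably, and its evaluation.
-/

namespace P195.Cert

open P195.Algebra

/-- A monomial: a word and a power of `t`. -/
abbrev Mo := List Gen × ℕ

/-- Integer combinations of monomials. -/
abbrev Poly := List (ℤ × Mo)

/-- Product. -/
def mulP (p q : Poly) : Poly :=
  p.flatMap fun x => q.map fun y => (x.1 * y.1, (x.2.1 ++ y.2.1, x.2.2 + y.2.2))

/-- Multiple. -/
def smulP (c : ℤ) (p : Poly) : Poly := p.map fun x => (c * x.1, x.2)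

/-- The differential of a generator. -/
def dG : Gen → Poly
  | .x _ => []
  | .p _ => []
  | .r i => [(1, [.x 0, .p i, .x 1], 0), (-1, [.x 1, .p i, .x 0], 0),
      if i = 0 then (1, [.x 1], 1) else (-1, [.x 0], 1)]
  | .q i => [(1, [.p 0, .x i, .p 1], 0), (-1, [.p 1, .x i, .p 0], 0),
      if i = 0 then (-1, [.p 1], 1) else (1, [.p 0], 1)]
  | .z a =>
    if a = 0 then
      [(1, [.p 0, .r 1], 0), (-1, [.p 1, .r 0], 0), (-1, [.q 0, .x 1], 0), (1, [.q 1, .x 0], 0)]
    else
      [(1, [.r 0, .p 1], 0), (-1, [.r 1, .p 0], 0), (-1, [.x 0, .q 1], 0), (1, [.x 1, .q 0], 0)]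

/-- The differential of a word. -/
def dW : List Gen → Poly
  | [] => []
  | g :: w => mulP (dG g) [(1, w, 0)] ++ smulP ((-1) ^ g.deg) (mulP [(1, [g], 0)] (dW w))

/-- The differential of a monomial. -/
def dM (m : Mo) : Poly := mulP [(1, [], m.2)] (dW m.1)

/-- All cells. -/
def LCs : List LC := [.E, .F 0, .F 1, .H]

/-- `Φ` modulo `u` on a generator. -/
def phiG : Gen → LC → LC → Poly
  | .x i, .E, .F j => if i = j then [(1, [], 0)] else []
  | .p j, .F i, .E => (1, [.p j, .x i], 0) :: (if i = j then [(-1, [], 1)] else [])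
  | .p j, .H, .E => [(-1, [.r j], 0)]
  | .r j, .E, .H => [(-1, [.p j], 0)]
  | .q j, .F i, .E => [(1, [.q i, .x j], 0)]
  | .q j, .H, .E => [(1, [.z 1, .x j], 0)]
  | .z a, .E, .E => if a = 1 then [(1, [.z 0], 0)] else []
  | .z a, .F i, .H => if a = 0 then [(-1, [.q i], 0)] else []
  | .z a, .H, .H => if a = 0 then [(-1, [.z 1], 0)] else []
  | _, _, _ => []

/-- `Φ` modulo `u` on a word. -/
def phiW : List Gen → LC → LC → Poly
  | [], c, c' => if c = c' then [(1, [], 0)] else []
  | g :: w, c, c' => LCs.flatMap fun m => mulP (phiG g c m) (phiW w m c')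

/-- `Φ` modulo `u` on a monomial. -/
def phiM (m : Mo) (c c' : LC) : Poly := mulP [(1, [], m.2)] (phiW m.1 c c')

/-- `N` modulo `u`. -/
def n0P : LC → LC → Poly
  | .H, .F i => if i = 0 then [(1, [.x 1], 0)] else [(-1, [.x 0], 0)]
  | _, _ => []

/-- The sign of a cell. -/
def csg (c : LC) : ℤ := (-1) ^ c.deg

/-- The basis of the cone. -/
abbrev Key := Mo ⊕ (LC × LC × Mo)

/-- Integer combinations of the basis. -/
abbrev Vec := List (ℤ × Key)

/-- A polynomial in an entry. -/
def atEntry (c c' : LC) (p : Poly) : Vec := p.map fun x => (x.1, .inr (c, c', x.2))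

/-- The differential of the cone. -/
def dK (a' a : Fin 2) : Key → Vec
  | .inl m => (dM m).map (fun x => (x.1, .inl x.2)) ++ LCs.flatMap fun c => LCs.flatMap fun c' =>
      atEntry c c' (if c.rv = a' ∧ c'.rv = a then smulP (csg c) (phiM m c c') else [])
  | .inr (c, c', m) => atEntry c c' (smulP (-csg c) (dM m))
      ++ (LCs.flatMap fun d => atEntry c d (mulP [(-csg c * (-1) ^ wdeg m.1, m)] (n0P c' d)))
      ++ LCs.flatMap fun d => atEntry d c' (smulP (-csg d) (mulP (n0P d c) [(1, m)]))

variable (k : Type) [Field k]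

/-- The monomial of the monoid. -/
def mon (m : Mo) : M := (FreeMonoid.ofList m.1, Multiplicative.ofAdd m.2)

/-- A monomial as an element. -/
noncomputable def mono (m : Mo) : F k := MonoidAlgebra.single (mon m) 1

/-- Evaluation. -/
noncomputable def ev (p : Poly) : F k := (p.map fun x => (x.1 : k) • mono k x.2).sum

variable {k}

theorem mon_mul (m m' : Mo) : mon m * mon m' = mon (m.1 ++ m'.1, m.2 + m'.2) := by
  simp [mon]

theorem mono_mul (m m' : Mo) : mono k m * mono k m' = mono k (m.1 ++ m'.1, m.2 + m'.2) := by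
  simp [mono, mon_mul]

@[simp] theorem ev_nil : ev k [] = 0 := by simp [ev]

@[simp] theorem ev_cons (x : ℤ × Mo) (p : Poly) :
    ev k (x :: p) = (x.1 : k) • mono k x.2 + ev k p := by
  simp [ev]

@[simp] theorem ev_append (p q : Poly) : ev k (p ++ q) = ev k p + ev k q := by simp [ev]

theorem ev_flatMap {α : Type} (l : List α) (f : α → Poly) :
    ev k (l.flatMap f) = (l.map fun a => ev k (f a)).sum := by
  induction l with
  | nil => simp
  | cons a l ih => simp [ih]

@[simp] theorem ev_smulP (c : ℤ) (p : Poly) : ev k (smulP c p) = (c : k) • ev k p := by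
  induction p with
  | nil => simp [smulP]
  | cons x p ih =>
    simp only [smulP, List.map_cons] at ih ⊢
    rw [ev_cons, ev_cons, ih, smul_add, smul_smul, Int.cast_mul]

@[simp] theorem ev_mulP (p q : Poly) : ev k (mulP p q) = ev k p * ev k q := by
  induction p with
  | nil => simp [mulP]
  | cons x p ih =>
    simp only [mulP, List.flatMap_cons] at ih ⊢
    rw [ev_append, ih, ev_cons, add_mul]
    congr 1
    clear ih
    induction q with
    | nil => simp
    | cons y q ihq =>
      rw [List.map_cons, ev_cons, ihq, ev_cons, mul_add]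
      rw [smul_mul_smul_comm, mono_mul, Int.cast_mul]

theorem mono_one : mono k ([], 0) = 1 := rfl

theorem mono_cons (g : Gen) (w : List Gen) : mono k (g :: w, 0) = gen k g * mono k (w, 0) := by
  have e : gen k g = mono k ([g], 0) := rfl
  rw [e, mono_mul]
  rfl

theorem mono_split (m : Mo) : mono k m = mono k ([], m.2) * mono k (m.1, 0) := by
  rw [mono_mul]
  simp

theorem mono_tpow (e : ℕ) : mono k ([], e) = tF k ^ e := by
  induction e with
  | zero => simp [mono_one]
  | succ e ih =>
    have e1 : tF k = mono k ([], 1) := rfl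
    rw [pow_succ, ← ih, e1, mono_mul]
    simp

theorem sg_mono (m : Mo) : sg k (mono k m) = (-1 : k) ^ wdeg m.1 • mono k m := by
  rw [mono, sg_single, MonoidAlgebra.smul_single, smul_eq_mul]
  rfl

theorem ev_dG (g : Gen) : ev k (dG g) = dX g := by
  have hX : ∀ g, (Algebra.X g : F k) = mono k ([g], 0) := fun _ => rfl
  have ht : (tt : F k) = mono k ([], 1) := rfl
  rcases g with i | i | i | i | i <;> fin_cases i <;>
    simp [dG, dX, hX, ht, mono_mul] <;> abel

theorem dF_one : dF k 1 = 0 := by
  show d (1 : F k) = 0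
  have h := d_mul (k := k) (1 : F k) 1
  simp only [mul_one, map_one, one_mul] at h
  exact left_eq_add.mp h

theorem ev_dW (w : List Gen) : ev k (dW w) = dF k (mono k (w, 0)) := by
  induction w with
  | nil => rw [mono_one, dF_one]; simp [dW]
  | cons g w ih =>
    have hg : sg k (gen k g) = (((-1) ^ g.deg : ℤ) : k) • gen k g := by rw [sg_gen]; simp
    have e : mono k ([g], 0) = gen k g := rfl
    rw [mono_cons, dW, ev_append, ev_smulP, ev_mulP, ev_mulP, ev_dG, ih]
    rw [show dF k (gen k g * mono k (w, 0)) =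
      sg k (gen k g) * dF k (mono k (w, 0)) + dX g * mono k (w, 0) by
        rw [← d_X]; exact d_mul _ _]
    rw [hg, smul_mul_assoc, add_comm]
    simp [e]

theorem dF_tpow_mul (e : ℕ) (x : F k) : dF k (tF k ^ e * x) = tF k ^ e * dF k x := by
  induction e generalizing x with
  | zero => simp
  | succ e ih =>
    rw [pow_succ, mul_assoc, ih, mul_assoc]
    congr 1
    show d ((tt : F k) * x) = tt * d x
    rw [d_mul, J_tt, d_tt, zero_mul, add_zero]

theorem ev_dM (m : Mo) : ev k (dM m) = dF k (mono k m) := by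
  rw [dM, ev_mulP, ev_dW, mono_split m, mono_tpow, dF_tpow_mul]
  simp [mono_tpow]

theorem sum_LC {A : Type} [AddCommMonoid A] (f : LC → A) :
    ∑ c, f c = (LCs.map f).sum := by
  have h : (Finset.univ : Finset LC) = LCs.toFinset := by decide
  rw [h, List.sum_toFinset _ (by decide)]

theorem ev_phiG (g : Gen) (c c' : LC) : ev k (phiG g c c') = Lam.re k (phiGen k g c c') := by
  have hX : ∀ g, gen k g = mono k ([g], 0) := fun _ => rfl
  have ht : tF k = mono k ([], 1) := rfl
  rcases g with i | i | i | i | i <;> rcases c with _ | c | _ <;> rcases c' with _ | c' | _ <;>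
    simp only [phiG, phiGen, map_zero, ev_nil] <;>
    (try split_ifs) <;>
    simp_all [mono_mul, mono_one, sub_eq_add_neg]

variable (k) in
/-- `Φ` modulo `u` as a ring map. -/
noncomputable def phi0L : F k →ₗ[k] Matrix LC LC (F k) :=
  (LinearMap.mapMatrix (Lam.re k)) ∘ₗ (phiF k).toLinearMap

theorem phi0L_apply (x : F k) : phi0L k x = phi0 k x := rfl

theorem phi0_mul (x y : F k) : phi0 k (x * y) = phi0 k x * phi0 k y := by
  ext c c' : 2
  simp [phi0, Matrix.mul_apply]

theorem phi0_tF (c c' : LC) : phi0 k (tF k) c c' = if c = c' then tF k else 0 := by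
  simp only [phi0, phiF_tF, Matrix.scalar_apply, Matrix.diagonal_apply]
  split_ifs <;> simp

theorem phi0_tpow (e : ℕ) (c c' : LC) :
    phi0 k (tF k ^ e) c c' = if c = c' then tF k ^ e else 0 := by
  induction e generalizing c c' with
  | zero =>
    simp only [pow_zero, phi0, map_one, Matrix.one_apply]
    split_ifs <;> simp
  | succ e ih =>
    rw [pow_succ, phi0_mul, Matrix.mul_apply]
    simp only [ih, phi0_tF, ite_mul, zero_mul, Finset.sum_ite_eq, Finset.mem_univ, if_true]
    split_ifs <;> simp [pow_succ]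

theorem ev_phiW (w : List Gen) (c c' : LC) : ev k (phiW w c c') = phi0 k (mono k (w, 0)) c c' := by
  induction w generalizing c c' with
  | nil =>
    rw [mono_one, phiW, ← pow_zero (tF k), phi0_tpow]
    split_ifs <;> simp [mono_one]
  | cons g w ih =>
    rw [mono_cons, phiW, ev_flatMap, phi0_mul, Matrix.mul_apply, sum_LC]
    congr 1
    refine List.map_congr_left fun m _ => ?_
    rw [ev_mulP, ih, ev_phiG]
    simp [phi0, phiF_gen]

theorem ev_phiM (m : Mo) (c c' : LC) : ev k (phiM m c c') = phi0 k (mono k m) c c' := by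
  rw [phiM, ev_mulP, ev_phiW, mono_split m, phi0_mul, Matrix.mul_apply, mono_tpow]
  simp [phi0_tpow, mono_tpow]

theorem ev_n0P (c c' : LC) : ev k (n0P c c') = n0 k c c' := by
  have hX : ∀ g, gen k g = mono k ([g], 0) := fun _ => rfl
  rcases c with _ | i | _ <;> rcases c' with _ | j | _ <;>
    simp only [n0P, n0, Nm, map_zero, ev_nil] <;> (try split_ifs) <;> simp_all

theorem csg_cast (c : LC) : ((csg c : ℤ) : k) = LC.sgn k c := by simp [csg, LC.sgn]

end P195.Cert
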