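import Vale.Agent.P195.Cert.Enum

/-!
P195 certificates: contracting homotopies of the twelve cones (integer matrices).
-/

namespace P195.Cert.Data

open P195.Algebra

private abbrev X0 : Gen := .x 0
private abbrev X1 : Gen := .x 1
private abbrev P0 : Gen := .p 0
private abbrev P1 : Gen := .p 1
private abbrev R0 : Gen := .r 0
private abbrev R1 : Gen := .r 1
private abbrev Q0 : Gen := .q 0
private abbrev Q1 : Gen := .q 1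
private abbrev Z0 : Gen := .z 0
private abbrev Z1 : Gen := .z 1
private abbrev S (m : Mo) : Key := .inl m
private abbrev B (c c' : LC) (m : Mo) : Key := .inr (c, c', m)

/-- The homotopy for `(0, 0, 0)`. -/
def h000 : List (Key × Vec) := [
  (B .H (.F 0) ([X0], 0), [(-1, B (.F 1) (.F 0) ([], 0))]),
  (B .H (.F 0) ([X1], 0), [(1, B (.F 0) (.F 0) ([], 0))]),
  (B .H (.F 1) ([X0], 0), [(-1, B (.F 1) (.F 1) ([], 0))]),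
  (B .H (.F 1) ([X1], 0), [(1, B (.F 0) (.F 1) ([], 0))]),
  (B .H .H ([], 0), [(-1, S ([], 0))])]

/-- The homotopy for `(0, 0, 1)`. -/
def h001 : List (Key × Vec) := [
  (B .H (.F 0) ([X0], 1), [(-1, B (.F 1) (.F 0) ([], 1))]),
  (B .H (.F 0) ([X0, P0, X0], 0), [(-1, B (.F 1) (.F 0) ([P0, X0], 0))]),
  (B .H (.F 0) ([X0, P0, X1], 0), [(-1, B (.F 1) (.F 0) ([P0, X1], 0))]),
  (B .H (.F 0) ([X0, P1, X0], 0), [(-1, B (.F 1) (.F 0) ([P1, X0], 0))]),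
  (B .H (.F 0) ([X0, P1, X1], 0), [(-1, B (.F 1) (.F 0) ([P1, X1], 0))]),
  (B .H (.F 0) ([X1], 1), [(1, B (.F 0) (.F 0) ([], 1))]),
  (B .H (.F 0) ([X1, P0, X0], 0), [(1, B (.F 0) (.F 0) ([P0, X0], 0))]),
  (B .H (.F 0) ([X1, P0, X1], 0), [(1, B (.F 0) (.F 0) ([P0, X1], 0))]),
  (B .H (.F 0) ([X1, P1, X0], 0), [(1, B (.F 0) (.F 0) ([P1, X0], 0))]),
  (B .H (.F 0) ([X1, P1, X1], 0), [(1, B (.F 0) (.F 0) ([P1, X1], 0))]),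
  (B .H (.F 0) ([R0], 0), [(1, S ([P0, X0], 0))]),
  (B .H (.F 0) ([R1], 0), [(1, S ([P1, X0], 0))]),
  (B .H (.F 1) ([X0], 1), [(-1, B (.F 1) (.F 1) ([], 1))]),
  (B .H (.F 1) ([X0, P0, X0], 0), [(-1, B (.F 1) (.F 1) ([P0, X0], 0))]),
  (B .H (.F 1) ([X0, P0, X1], 0), [(-1, B (.F 1) (.F 1) ([P0, X1], 0))]),
  (B .H (.F 1) ([X0, P1, X0], 0), [(-1, B (.F 1) (.F 1) ([P1, X0], 0))]),
  (B .H (.F 1) ([X0, P1, X1], 0), [(-1, B (.F 1) (.F 1) ([P1, X1], 0))]),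
  (B .H (.F 1) ([X1], 1), [(1, B (.F 0) (.F 1) ([], 1))]),
  (B .H (.F 1) ([X1, P0, X0], 0), [(1, B (.F 0) (.F 1) ([P0, X0], 0))]),
  (B .H (.F 1) ([X1, P0, X1], 0), [(1, B (.F 0) (.F 1) ([P0, X1], 0))]),
  (B .H (.F 1) ([X1, P1, X0], 0), [(1, B (.F 0) (.F 1) ([P1, X0], 0))]),
  (B .H (.F 1) ([X1, P1, X1], 0), [(1, B (.F 0) (.F 1) ([P1, X1], 0))]),
  (B .H (.F 1) ([R0], 0), [(1, S ([P0, X1], 0))]),
  (B .H (.F 1) ([R1], 0), [(1, S ([P1, X1], 0))]),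
  (B .H .H ([], 1), [(-1, S ([], 1))]),
  (B .H .H ([X0, P0], 0), [(-1, B (.F 1) .H ([P0], 0))]),
  (B .H .H ([X0, P1], 0), [(-1, B (.F 1) .H ([P1], 0))]),
  (B .H .H ([X1, P0], 0), [(1, B (.F 0) .H ([P0], 0))]),
  (B .H .H ([X1, P1], 0), [(1, B (.F 0) .H ([P1], 0))])]

/-- The homotopy for `(0, 0, 2)`. -/
def h002 : List (Key × Vec) := [
  (S ([P0, X0, P0, X1], 0), [(1, S ([P0, R0], 0))]),
  (S ([P0, X1, P1, X0], 0), [(1, S ([Q1, X0], 0))]),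
  (S ([P0, X1, P1, X1], 0), [(1, S ([Q1, X1], 0))]),
  (S ([P1, X0, P0, X0], 0), [(-1, S ([Q0, X0], 0))]),
  (S ([P1, X0, P0, X1], 0), [(-1, S ([Q0, X1], 0))]),
  (S ([P1, X1, P1, X0], 0), [(-1, S ([P1, R1], 0))]),
  (S ([P1, R0], 0), [(-1, S ([Z0], 0))]),
  (B .H (.F 0) ([X0], 2), [(-1, B (.F 1) (.F 0) ([], 2))]),
  (B .H (.F 0) ([X0, P0, X0], 1), [(-1, B (.F 1) (.F 0) ([P0, X0], 1))]),
  (B .H (.F 0) ([X0, P0, X0, P0, X0], 0), [(-1, B (.F 1) (.F 0) ([P0, X0, P0, X0], 0))]),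
  (B .H (.F 0) ([X0, P0, X0, P0, X1], 0), [(-1, B (.F 1) (.F 0) ([P0, X0, P0, X1], 0))]),
  (B .H (.F 0) ([X0, P0, X0, P1, X0], 0), [(-1, B (.F 1) (.F 0) ([P0, X0, P1, X0], 0))]),
  (B .H (.F 0) ([X0, P0, X0, P1, X1], 0), [(-1, B (.F 1) (.F 0) ([P0, X0, P1, X1], 0))]),
  (B .H (.F 0) ([X0, P0, X1], 1), [(-1, B (.F 1) (.F 0) ([P0, X1], 1))]),
  (B .H (.F 0) ([X0, P0, X1, P0, X0], 0), [(-1, B (.F 1) (.F 0) ([P0, X1, P0, X0], 0))]),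
  (B .H (.F 0) ([X0, P0, X1, P0, X1], 0), [(-1, B (.F 1) (.F 0) ([P0, X1, P0, X1], 0))]),
  (B .H (.F 0) ([X0, P0, X1, P1, X0], 0), [(-1, B (.F 1) (.F 0) ([P0, X1, P1, X0], 0))]),
  (B .H (.F 0) ([X0, P0, X1, P1, X1], 0), [(-1, B (.F 1) (.F 0) ([P0, X1, P1, X1], 0))]),
  (B .H (.F 0) ([X0, P0, R0], 0), [(-1, B (.F 1) (.F 0) ([P0, R0], 0))]),
  (B .H (.F 0) ([X0, P0, R1], 0), [(-1, B (.F 1) (.F 0) ([P0, R1], 0))]),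
  (B .H (.F 0) ([X0, P1, X0], 1), [(-1, B (.F 1) (.F 0) ([P1, X0], 1))]),
  (B .H (.F 0) ([X0, P1, X0, P0, X0], 0), [(-1, B (.F 1) (.F 0) ([P1, X0, P0, X0], 0))]),
  (B .H (.F 0) ([X0, P1, X0, P0, X1], 0), [(-1, B (.F 1) (.F 0) ([P1, X0, P0, X1], 0))]),
  (B .H (.F 0) ([X0, P1, X0, P1, X0], 0), [(-1, B (.F 1) (.F 0) ([P1, X0, P1, X0], 0))]),
  (B .H (.F 0) ([X0, P1, X0, P1, X1], 0), [(-1, B (.F 1) (.F 0) ([P1, X0, P1, X1], 0))]),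
  (B .H (.F 0) ([X0, P1, X1], 1), [(-1, B (.F 1) (.F 0) ([P1, X1], 1))]),
  (B .H (.F 0) ([X0, P1, X1, P0, X0], 0), [(-1, B (.F 1) (.F 0) ([P1, X1, P0, X0], 0))]),
  (B .H (.F 0) ([X0, P1, X1, P0, X1], 0), [(-1, B (.F 1) (.F 0) ([P1, X1, P0, X1], 0))]),
  (B .H (.F 0) ([X0, P1, X1, P1, X0], 0), [(-1, B (.F 1) (.F 0) ([P1, X1, P1, X0], 0))]),
  (B .H (.F 0) ([X0, P1, X1, P1, X1], 0), [(-1, B (.F 1) (.F 0) ([P1, X1, P1, X1], 0))]),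
  (B .H (.F 0) ([X0, P1, R0], 0), [(-1, B (.F 1) (.F 0) ([P1, R0], 0))]),
  (B .H (.F 0) ([X0, P1, R1], 0), [(-1, B (.F 1) (.F 0) ([P1, R1], 0))]),
  (B .H (.F 0) ([X0, Q0, X0], 0), [(-1, B (.F 1) (.F 0) ([Q0, X0], 0))]),
  (B .H (.F 0) ([X0, Q0, X1], 0), [(-1, B (.F 1) (.F 0) ([Q0, X1], 0))]),
  (B .H (.F 0) ([X0, Q1, X0], 0), [(-1, B (.F 1) (.F 0) ([Q1, X0], 0))]),
  (B .H (.F 0) ([X0, Q1, X1], 0), [(-1, B (.F 1) (.F 0) ([Q1, X1], 0))]),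
  (B .H (.F 0) ([X0, Z0], 0), [(-1, B (.F 1) (.F 0) ([Z0], 0))]),
  (B .H (.F 0) ([X1], 2), [(1, B (.F 0) (.F 0) ([], 2))]),
  (B .H (.F 0) ([X1, P0, X0], 1), [(1, B (.F 0) (.F 0) ([P0, X0], 1))]),
  (B .H (.F 0) ([X1, P0, X0, P0, X0], 0), [(1, B (.F 0) (.F 0) ([P0, X0, P0, X0], 0))]),
  (B .H (.F 0) ([X1, P0, X0, P0, X1], 0), [(1, B (.F 0) (.F 0) ([P0, X0, P0, X1], 0))]),
  (B .H (.F 0) ([X1, P0, X0, P1, X0], 0), [(1, B (.F 0) (.F 0) ([P0, X0, P1, X0], 0))]),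
  (B .H (.F 0) ([X1, P0, X0, P1, X1], 0), [(1, B (.F 0) (.F 0) ([P0, X0, P1, X1], 0))]),
  (B .H (.F 0) ([X1, P0, X1], 1), [(1, B (.F 0) (.F 0) ([P0, X1], 1))]),
  (B .H (.F 0) ([X1, P0, X1, P0, X0], 0), [(1, B (.F 0) (.F 0) ([P0, X1, P0, X0], 0))]),
  (B .H (.F 0) ([X1, P0, X1, P0, X1], 0), [(1, B (.F 0) (.F 0) ([P0, X1, P0, X1], 0))]),
  (B .H (.F 0) ([X1, P0, X1, P1, X0], 0), [(1, B (.F 0) (.F 0) ([P0, X1, P1, X0], 0))]),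
  (B .H (.F 0) ([X1, P0, X1, P1, X1], 0), [(1, B (.F 0) (.F 0) ([P0, X1, P1, X1], 0))]),
  (B .H (.F 0) ([X1, P0, R0], 0), [(1, B (.F 0) (.F 0) ([P0, R0], 0))]),
  (B .H (.F 0) ([X1, P0, R1], 0), [(1, B (.F 0) (.F 0) ([P0, R1], 0))]),
  (B .H (.F 0) ([X1, P1, X0], 1), [(1, B (.F 0) (.F 0) ([P1, X0], 1))]),
  (B .H (.F 0) ([X1, P1, X0, P0, X0], 0), [(1, B (.F 0) (.F 0) ([P1, X0, P0, X0], 0))]),
  (B .H (.F 0) ([X1, P1, X0, P0, X1], 0), [(1, B (.F 0) (.F 0) ([P1, X0, P0, X1], 0))]),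
  (B .H (.F 0) ([X1, P1, X0, P1, X0], 0), [(1, B (.F 0) (.F 0) ([P1, X0, P1, X0], 0))]),
  (B .H (.F 0) ([X1, P1, X0, P1, X1], 0), [(1, B (.F 0) (.F 0) ([P1, X0, P1, X1], 0))]),
  (B .H (.F 0) ([X1, P1, X1], 1), [(1, B (.F 0) (.F 0) ([P1, X1], 1))]),
  (B .H (.F 0) ([X1, P1, X1, P0, X0], 0), [(1, B (.F 0) (.F 0) ([P1, X1, P0, X0], 0))]),
  (B .H (.F 0) ([X1, P1, X1, P0, X1], 0), [(1, B (.F 0) (.F 0) ([P1, X1, P0, X1], 0))]),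
  (B .H (.F 0) ([X1, P1, X1, P1, X0], 0), [(1, B (.F 0) (.F 0) ([P1, X1, P1, X0], 0))]),
  (B .H (.F 0) ([X1, P1, X1, P1, X1], 0), [(1, B (.F 0) (.F 0) ([P1, X1, P1, X1], 0))]),
  (B .H (.F 0) ([X1, P1, R0], 0), [(1, B (.F 0) (.F 0) ([P1, R0], 0))]),
  (B .H (.F 0) ([X1, P1, R1], 0), [(1, B (.F 0) (.F 0) ([P1, R1], 0))]),
  (B .H (.F 0) ([X1, Q0, X0], 0), [(1, B (.F 0) (.F 0) ([Q0, X0], 0))]),
  (B .H (.F 0) ([X1, Q0, X1], 0), [(1, B (.F 0) (.F 0) ([Q0, X1], 0))]),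
  (B .H (.F 0) ([X1, Q1, X0], 0), [(1, B (.F 0) (.F 0) ([Q1, X0], 0))]),
  (B .H (.F 0) ([X1, Q1, X1], 0), [(1, B (.F 0) (.F 0) ([Q1, X1], 0))]),
  (B .H (.F 0) ([X1, Z0], 0), [(1, B (.F 0) (.F 0) ([Z0], 0))]),
  (B .H (.F 0) ([R0], 1), [(1, S ([P0, X0], 1))]),
  (B .H (.F 0) ([R0, P0, X0], 0), [(1, S ([P0, X0], 1)), (1, S ([P0, X0, P0, X0], 0))]),
  (B .H (.F 0) ([R0, P0, X1], 0), [(1, S ([P0, X1, P0, X0], 0))]),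
  (B .H (.F 0) ([R0, P1, X0], 0), [(1, S ([P0, X0, P1, X0], 0))]),
  (B .H (.F 0) ([R0, P1, X1], 0), [(1, B .H (.F 0) ([Z1, X1], 0)), (-1, B (.F 1) (.F 0) ([Q1, X1], 0)), (-1, B (.F 0) (.F 0) ([Q0, X1], 0)), (1, S ([P1, X1, P0, X0], 0))]),
  (B .H (.F 0) ([R1], 1), [(1, S ([P1, X0], 1))]),
  (B .H (.F 0) ([R1, P0, X0], 0), [(1, B (.F 0) (.F 0) ([Q0, X0], 0)), (1, S ([P0, X0, P1, X0], 0)), (1, B (.F 1) (.F 0) ([Q1, X0], 0)), (-1, B .H (.F 0) ([Z1, X0], 0))]),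
  (B .H (.F 0) ([R1, P0, X1], 0), [(1, S ([P1, X1, P0, X0], 0))]),
  (B .H (.F 0) ([R1, P1, X0], 0), [(1, S ([P1, X0, P1, X0], 0))]),
  (B .H (.F 0) ([R1, P1, X1], 0), [(-1, B (.F 0) .H ([P1, X0, P1], 0)), (1, S ([P1, X0, P1, X1], 0)), (1, B (.F 1) .H ([P1], 1)), (-1, B (.F 1) .H ([P1, X1, P1], 0)), (-1, B .H .H ([R1, P1], 0))]),
  (B .H (.F 1) ([X0], 2), [(-1, B (.F 1) (.F 1) ([], 2))]),
  (B .H (.F 1) ([X0, P0, X0], 1), [(-1, B (.F 1) (.F 1) ([P0, X0], 1))]),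
  (B .H (.F 1) ([X0, P0, X0, P0, X0], 0), [(-1, B (.F 1) (.F 1) ([P0, X0, P0, X0], 0))]),
  (B .H (.F 1) ([X0, P0, X0, P0, X1], 0), [(-1, B (.F 1) (.F 1) ([P0, X0, P0, X1], 0))]),
  (B .H (.F 1) ([X0, P0, X0, P1, X0], 0), [(-1, B (.F 1) (.F 1) ([P0, X0, P1, X0], 0))]),
  (B .H (.F 1) ([X0, P0, X0, P1, X1], 0), [(-1, B (.F 1) (.F 1) ([P0, X0, P1, X1], 0))]),
  (B .H (.F 1) ([X0, P0, X1], 1), [(-1, B (.F 1) (.F 1) ([P0, X1], 1))]),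
  (B .H (.F 1) ([X0, P0, X1, P0, X0], 0), [(-1, B (.F 1) (.F 1) ([P0, X1, P0, X0], 0))]),
  (B .H (.F 1) ([X0, P0, X1, P0, X1], 0), [(-1, B (.F 1) (.F 1) ([P0, X1, P0, X1], 0))]),
  (B .H (.F 1) ([X0, P0, X1, P1, X0], 0), [(-1, B (.F 1) (.F 1) ([P0, X1, P1, X0], 0))]),
  (B .H (.F 1) ([X0, P0, X1, P1, X1], 0), [(-1, B (.F 1) (.F 1) ([P0, X1, P1, X1], 0))]),
  (B .H (.F 1) ([X0, P0, R0], 0), [(-1, B (.F 1) (.F 1) ([P0, R0], 0))]),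
  (B .H (.F 1) ([X0, P0, R1], 0), [(-1, B (.F 1) (.F 1) ([P0, R1], 0))]),
  (B .H (.F 1) ([X0, P1, X0], 1), [(-1, B (.F 1) (.F 1) ([P1, X0], 1))]),
  (B .H (.F 1) ([X0, P1, X0, P0, X0], 0), [(-1, B (.F 1) (.F 1) ([P1, X0, P0, X0], 0))]),
  (B .H (.F 1) ([X0, P1, X0, P0, X1], 0), [(-1, B (.F 1) (.F 1) ([P1, X0, P0, X1], 0))]),
  (B .H (.F 1) ([X0, P1, X0, P1, X0], 0), [(-1, B (.F 1) (.F 1) ([P1, X0, P1, X0], 0))]),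
  (B .H (.F 1) ([X0, P1, X0, P1, X1], 0), [(-1, B (.F 1) (.F 1) ([P1, X0, P1, X1], 0))]),
  (B .H (.F 1) ([X0, P1, X1], 1), [(-1, B (.F 1) (.F 1) ([P1, X1], 1))]),
  (B .H (.F 1) ([X0, P1, X1, P0, X0], 0), [(-1, B (.F 1) (.F 1) ([P1, X1, P0, X0], 0))]),
  (B .H (.F 1) ([X0, P1, X1, P0, X1], 0), [(-1, B (.F 1) (.F 1) ([P1, X1, P0, X1], 0))]),
  (B .H (.F 1) ([X0, P1, X1, P1, X0], 0), [(-1, B (.F 1) (.F 1) ([P1, X1, P1, X0], 0))]),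
  (B .H (.F 1) ([X0, P1, X1, P1, X1], 0), [(-1, B (.F 1) (.F 1) ([P1, X1, P1, X1], 0))]),
  (B .H (.F 1) ([X0, P1, R0], 0), [(-1, B (.F 1) (.F 1) ([P1, R0], 0))]),
  (B .H (.F 1) ([X0, P1, R1], 0), [(-1, B (.F 1) (.F 1) ([P1, R1], 0))]),
  (B .H (.F 1) ([X0, Q0, X0], 0), [(-1, B (.F 1) (.F 1) ([Q0, X0], 0))]),
  (B .H (.F 1) ([X0, Q0, X1], 0), [(-1, B (.F 1) (.F 1) ([Q0, X1], 0))]),
  (B .H (.F 1) ([X0, Q1, X0], 0), [(-1, B (.F 1) (.F 1) ([Q1, X0], 0))]),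
  (B .H (.F 1) ([X0, Q1, X1], 0), [(-1, B (.F 1) (.F 1) ([Q1, X1], 0))]),
  (B .H (.F 1) ([X0, Z0], 0), [(-1, B (.F 1) (.F 1) ([Z0], 0))]),
  (B .H (.F 1) ([X1], 2), [(1, B (.F 0) (.F 1) ([], 2))]),
  (B .H (.F 1) ([X1, P0, X0], 1), [(1, B (.F 0) (.F 1) ([P0, X0], 1))]),
  (B .H (.F 1) ([X1, P0, X0, P0, X0], 0), [(1, B (.F 0) (.F 1) ([P0, X0, P0, X0], 0))]),
  (B .H (.F 1) ([X1, P0, X0, P0, X1], 0), [(1, B (.F 0) (.F 1) ([P0, X0, P0, X1], 0))]),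
  (B .H (.F 1) ([X1, P0, X0, P1, X0], 0), [(1, B (.F 0) (.F 1) ([P0, X0, P1, X0], 0))]),
  (B .H (.F 1) ([X1, P0, X0, P1, X1], 0), [(1, B (.F 0) (.F 1) ([P0, X0, P1, X1], 0))]),
  (B .H (.F 1) ([X1, P0, X1], 1), [(1, B (.F 0) (.F 1) ([P0, X1], 1))]),
  (B .H (.F 1) ([X1, P0, X1, P0, X0], 0), [(1, B (.F 0) (.F 1) ([P0, X1, P0, X0], 0))]),
  (B .H (.F 1) ([X1, P0, X1, P0, X1], 0), [(1, B (.F 0) (.F 1) ([P0, X1, P0, X1], 0))]),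
  (B .H (.F 1) ([X1, P0, X1, P1, X0], 0), [(1, B (.F 0) (.F 1) ([P0, X1, P1, X0], 0))]),
  (B .H (.F 1) ([X1, P0, X1, P1, X1], 0), [(1, B (.F 0) (.F 1) ([P0, X1, P1, X1], 0))]),
  (B .H (.F 1) ([X1, P0, R0], 0), [(1, B (.F 0) (.F 1) ([P0, R0], 0))]),
  (B .H (.F 1) ([X1, P0, R1], 0), [(1, B (.F 0) (.F 1) ([P0, R1], 0))]),
  (B .H (.F 1) ([X1, P1, X0], 1), [(1, B (.F 0) (.F 1) ([P1, X0], 1))]),
  (B .H (.F 1) ([X1, P1, X0, P0, X0], 0), [(1, B (.F 0) (.F 1) ([P1, X0, P0, X0], 0))]),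
  (B .H (.F 1) ([X1, P1, X0, P0, X1], 0), [(1, B (.F 0) (.F 1) ([P1, X0, P0, X1], 0))]),
  (B .H (.F 1) ([X1, P1, X0, P1, X0], 0), [(1, B (.F 0) (.F 1) ([P1, X0, P1, X0], 0))]),
  (B .H (.F 1) ([X1, P1, X0, P1, X1], 0), [(1, B (.F 0) (.F 1) ([P1, X0, P1, X1], 0))]),
  (B .H (.F 1) ([X1, P1, X1], 1), [(1, B (.F 0) (.F 1) ([P1, X1], 1))]),
  (B .H (.F 1) ([X1, P1, X1, P0, X0], 0), [(1, B (.F 0) (.F 1) ([P1, X1, P0, X0], 0))]),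
  (B .H (.F 1) ([X1, P1, X1, P0, X1], 0), [(1, B (.F 0) (.F 1) ([P1, X1, P0, X1], 0))]),
  (B .H (.F 1) ([X1, P1, X1, P1, X0], 0), [(1, B (.F 0) (.F 1) ([P1, X1, P1, X0], 0))]),
  (B .H (.F 1) ([X1, P1, X1, P1, X1], 0), [(1, B (.F 0) (.F 1) ([P1, X1, P1, X1], 0))]),
  (B .H (.F 1) ([X1, P1, R0], 0), [(1, B (.F 0) (.F 1) ([P1, R0], 0))]),
  (B .H (.F 1) ([X1, P1, R1], 0), [(1, B (.F 0) (.F 1) ([P1, R1], 0))]),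
  (B .H (.F 1) ([X1, Q0, X0], 0), [(1, B (.F 0) (.F 1) ([Q0, X0], 0))]),
  (B .H (.F 1) ([X1, Q0, X1], 0), [(1, B (.F 0) (.F 1) ([Q0, X1], 0))]),
  (B .H (.F 1) ([X1, Q1, X0], 0), [(1, B (.F 0) (.F 1) ([Q1, X0], 0))]),
  (B .H (.F 1) ([X1, Q1, X1], 0), [(1, B (.F 0) (.F 1) ([Q1, X1], 0))]),
  (B .H (.F 1) ([X1, Z0], 0), [(1, B (.F 0) (.F 1) ([Z0], 0))]),
  (B .H (.F 1) ([R0], 1), [(1, S ([P0, X1], 1))]),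
  (B .H (.F 1) ([R0, P0, X0], 0), [(1, S ([P0, X1, P0, X0], 0)), (1, B (.F 0) .H ([P0, X0, P0], 0)), (1, B (.F 1) .H ([P0, X1, P0], 0)), (-1, B (.F 0) .H ([P0], 1)), (1, B .H .H ([R0, P0], 0))]),
  (B .H (.F 1) ([R0, P0, X1], 0), [(1, S ([P0, X1, P0, X1], 0))]),
  (B .H (.F 1) ([R0, P1, X0], 0), [(1, S ([P0, X0, P1, X1], 0))]),
  (B .H (.F 1) ([R0, P1, X1], 0), [(-1, B (.F 0) (.F 1) ([Q0, X1], 0)), (1, S ([P1, X1, P0, X1], 0)), (-1, B (.F 1) (.F 1) ([Q1, X1], 0)), (1, B .H (.F 1) ([Z1, X1], 0))]),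
  (B .H (.F 1) ([R1], 1), [(1, S ([P1, X1], 1))]),
  (B .H (.F 1) ([R1, P0, X0], 0), [(1, S ([P0, X0, P1, X1], 0)), (1, B (.F 0) (.F 1) ([Q0, X0], 0)), (1, B (.F 1) (.F 1) ([Q1, X0], 0)), (-1, B .H (.F 1) ([Z1, X0], 0))]),
  (B .H (.F 1) ([R1, P0, X1], 0), [(1, S ([P1, X1, P0, X1], 0))]),
  (B .H (.F 1) ([R1, P1, X0], 0), [(1, S ([P1, X0, P1, X1], 0))]),
  (B .H (.F 1) ([R1, P1, X1], 0), [(1, S ([P1, X1], 1)), (1, S ([P1, X1, P1, X1], 0))]),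
  (B .H .H ([], 2), [(-1, S ([], 2))]),
  (B .H .H ([X0, P0], 1), [(-1, B (.F 1) .H ([P0], 1))]),
  (B .H .H ([X0, P0, X0, P0], 0), [(-1, B (.F 1) .H ([P0, X0, P0], 0))]),
  (B .H .H ([X0, P0, X0, P1], 0), [(-1, B (.F 1) .H ([P0, X0, P1], 0))]),
  (B .H .H ([X0, P0, X1, P0], 0), [(-1, B (.F 1) .H ([P0, X1, P0], 0))]),
  (B .H .H ([X0, P0, X1, P1], 0), [(-1, B (.F 1) .H ([P0, X1, P1], 0))]),
  (B .H .H ([X0, P1], 1), [(-1, B (.F 1) .H ([P1], 1))]),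
  (B .H .H ([X0, P1, X0, P0], 0), [(-1, B (.F 1) .H ([P1, X0, P0], 0))]),
  (B .H .H ([X0, P1, X0, P1], 0), [(-1, B (.F 1) .H ([P1, X0, P1], 0))]),
  (B .H .H ([X0, P1, X1, P0], 0), [(-1, B (.F 1) .H ([P1, X1, P0], 0))]),
  (B .H .H ([X0, P1, X1, P1], 0), [(-1, B (.F 1) .H ([P1, X1, P1], 0))]),
  (B .H .H ([X0, Q0], 0), [(-1, B (.F 1) .H ([Q0], 0))]),
  (B .H .H ([X0, Q1], 0), [(-1, B (.F 1) .H ([Q1], 0))]),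
  (B .H .H ([X1, P0], 1), [(1, B (.F 0) .H ([P0], 1))]),
  (B .H .H ([X1, P0, X0, P0], 0), [(1, B (.F 0) .H ([P0, X0, P0], 0))]),
  (B .H .H ([X1, P0, X0, P1], 0), [(1, B (.F 0) .H ([P0, X0, P1], 0))]),
  (B .H .H ([X1, P0, X1, P0], 0), [(1, B (.F 0) .H ([P0, X1, P0], 0))]),
  (B .H .H ([X1, P0, X1, P1], 0), [(1, B (.F 0) .H ([P0, X1, P1], 0))]),
  (B .H .H ([X1, P1], 1), [(1, B (.F 0) .H ([P1], 1))]),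
  (B .H .H ([X1, P1, X0, P0], 0), [(1, B (.F 0) .H ([P1, X0, P0], 0))]),
  (B .H .H ([X1, P1, X0, P1], 0), [(1, B (.F 0) .H ([P1, X0, P1], 0))]),
  (B .H .H ([X1, P1, X1, P0], 0), [(1, B (.F 0) .H ([P1, X1, P0], 0))]),
  (B .H .H ([X1, P1, X1, P1], 0), [(1, B (.F 0) .H ([P1, X1, P1], 0))]),
  (B .H .H ([X1, Q0], 0), [(1, B (.F 0) .H ([Q0], 0))]),
  (B .H .H ([X1, Q1], 0), [(1, B (.F 0) .H ([Q1], 0))]),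
  (B .H .H ([R0, P1], 0), [(-1, S ([P0, R1], 0)), (-1, S ([Q1, X0], 0))]),
  (B .H .H ([R1, P0], 0), [(-1, S ([P0, R1], 0)), (-1, S ([Q1, X0], 0)), (1, B (.F 0) .H ([Q0], 0)), (1, B (.F 1) .H ([Q1], 0)), (-1, B .H .H ([Z1], 0))])]

/-- The homotopy for `(0, 1, 0)`. -/
def h010 : List (Key × Vec) := [
  (B .H .E ([X0], 0), [(-1, B (.F 1) .E ([], 0))]),
  (B .H .E ([X1], 0), [(1, B (.F 0) .E ([], 0))])]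

/-- The homotopy for `(0, 1, 1)`. -/
def h011 : List (Key × Vec) := [
  (B .H .E ([X0], 1), [(-1, B (.F 1) .E ([], 1))]),
  (B .H .E ([X0, P0, X0], 0), [(-1, B (.F 1) .E ([P0, X0], 0))]),
  (B .H .E ([X0, P0, X1], 0), [(-1, B (.F 1) .E ([P0, X1], 0))]),
  (B .H .E ([X0, P1, X0], 0), [(-1, B (.F 1) .E ([P1, X0], 0))]),
  (B .H .E ([X0, P1, X1], 0), [(-1, B (.F 1) .E ([P1, X1], 0))]),
  (B .H .E ([X1], 1), [(1, B (.F 0) .E ([], 1))]),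
  (B .H .E ([X1, P0, X0], 0), [(1, B (.F 0) .E ([P0, X0], 0))]),
  (B .H .E ([X1, P0, X1], 0), [(1, B (.F 0) .E ([P0, X1], 0))]),
  (B .H .E ([X1, P1, X0], 0), [(1, B (.F 0) .E ([P1, X0], 0))]),
  (B .H .E ([X1, P1, X1], 0), [(1, B (.F 0) .E ([P1, X1], 0))]),
  (B .H .E ([R0], 0), [(1, S ([P0], 0))]),
  (B .H .E ([R1], 0), [(1, S ([P1], 0))])]

/-- The homotopy for `(0, 1, 2)`. -/
def h012 : List (Key × Vec) := [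
  (S ([P0, X1, P1], 0), [(1, S ([Q1], 0))]),
  (S ([P1, X0, P0], 0), [(-1, S ([Q0], 0))]),
  (B .H .E ([X0], 2), [(-1, B (.F 1) .E ([], 2))]),
  (B .H .E ([X0, P0, X0], 1), [(-1, B (.F 1) .E ([P0, X0], 1))]),
  (B .H .E ([X0, P0, X0, P0, X0], 0), [(-1, B (.F 1) .E ([P0, X0, P0, X0], 0))]),
  (B .H .E ([X0, P0, X0, P0, X1], 0), [(-1, B (.F 1) .E ([P0, X0, P0, X1], 0))]),
  (B .H .E ([X0, P0, X0, P1, X0], 0), [(-1, B (.F 1) .E ([P0, X0, P1, X0], 0))]),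
  (B .H .E ([X0, P0, X0, P1, X1], 0), [(-1, B (.F 1) .E ([P0, X0, P1, X1], 0))]),
  (B .H .E ([X0, P0, X1], 1), [(-1, B (.F 1) .E ([P0, X1], 1))]),
  (B .H .E ([X0, P0, X1, P0, X0], 0), [(-1, B (.F 1) .E ([P0, X1, P0, X0], 0))]),
  (B .H .E ([X0, P0, X1, P0, X1], 0), [(-1, B (.F 1) .E ([P0, X1, P0, X1], 0))]),
  (B .H .E ([X0, P0, X1, P1, X0], 0), [(-1, B (.F 1) .E ([P0, X1, P1, X0], 0))]),
  (B .H .E ([X0, P0, X1, P1, X1], 0), [(-1, B (.F 1) .E ([P0, X1, P1, X1], 0))]),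
  (B .H .E ([X0, P0, R0], 0), [(-1, B (.F 1) .E ([P0, R0], 0))]),
  (B .H .E ([X0, P0, R1], 0), [(-1, B (.F 1) .E ([P0, R1], 0))]),
  (B .H .E ([X0, P1, X0], 1), [(-1, B (.F 1) .E ([P1, X0], 1))]),
  (B .H .E ([X0, P1, X0, P0, X0], 0), [(-1, B (.F 1) .E ([P1, X0, P0, X0], 0))]),
  (B .H .E ([X0, P1, X0, P0, X1], 0), [(-1, B (.F 1) .E ([P1, X0, P0, X1], 0))]),
  (B .H .E ([X0, P1, X0, P1, X0], 0), [(-1, B (.F 1) .E ([P1, X0, P1, X0], 0))]),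
  (B .H .E ([X0, P1, X0, P1, X1], 0), [(-1, B (.F 1) .E ([P1, X0, P1, X1], 0))]),
  (B .H .E ([X0, P1, X1], 1), [(-1, B (.F 1) .E ([P1, X1], 1))]),
  (B .H .E ([X0, P1, X1, P0, X0], 0), [(-1, B (.F 1) .E ([P1, X1, P0, X0], 0))]),
  (B .H .E ([X0, P1, X1, P0, X1], 0), [(-1, B (.F 1) .E ([P1, X1, P0, X1], 0))]),
  (B .H .E ([X0, P1, X1, P1, X0], 0), [(-1, B (.F 1) .E ([P1, X1, P1, X0], 0))]),
  (B .H .E ([X0, P1, X1, P1, X1], 0), [(-1, B (.F 1) .E ([P1, X1, P1, X1], 0))]),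
  (B .H .E ([X0, P1, R0], 0), [(-1, B (.F 1) .E ([P1, R0], 0))]),
  (B .H .E ([X0, P1, R1], 0), [(-1, B (.F 1) .E ([P1, R1], 0))]),
  (B .H .E ([X0, Q0, X0], 0), [(-1, B (.F 1) .E ([Q0, X0], 0))]),
  (B .H .E ([X0, Q0, X1], 0), [(-1, B (.F 1) .E ([Q0, X1], 0))]),
  (B .H .E ([X0, Q1, X0], 0), [(-1, B (.F 1) .E ([Q1, X0], 0))]),
  (B .H .E ([X0, Q1, X1], 0), [(-1, B (.F 1) .E ([Q1, X1], 0))]),
  (B .H .E ([X0, Z0], 0), [(-1, B (.F 1) .E ([Z0], 0))]),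
  (B .H .E ([X1], 2), [(1, B (.F 0) .E ([], 2))]),
  (B .H .E ([X1, P0, X0], 1), [(1, B (.F 0) .E ([P0, X0], 1))]),
  (B .H .E ([X1, P0, X0, P0, X0], 0), [(1, B (.F 0) .E ([P0, X0, P0, X0], 0))]),
  (B .H .E ([X1, P0, X0, P0, X1], 0), [(1, B (.F 0) .E ([P0, X0, P0, X1], 0))]),
  (B .H .E ([X1, P0, X0, P1, X0], 0), [(1, B (.F 0) .E ([P0, X0, P1, X0], 0))]),
  (B .H .E ([X1, P0, X0, P1, X1], 0), [(1, B (.F 0) .E ([P0, X0, P1, X1], 0))]),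
  (B .H .E ([X1, P0, X1], 1), [(1, B (.F 0) .E ([P0, X1], 1))]),
  (B .H .E ([X1, P0, X1, P0, X0], 0), [(1, B (.F 0) .E ([P0, X1, P0, X0], 0))]),
  (B .H .E ([X1, P0, X1, P0, X1], 0), [(1, B (.F 0) .E ([P0, X1, P0, X1], 0))]),
  (B .H .E ([X1, P0, X1, P1, X0], 0), [(1, B (.F 0) .E ([P0, X1, P1, X0], 0))]),
  (B .H .E ([X1, P0, X1, P1, X1], 0), [(1, B (.F 0) .E ([P0, X1, P1, X1], 0))]),
  (B .H .E ([X1, P0, R0], 0), [(1, B (.F 0) .E ([P0, R0], 0))]),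
  (B .H .E ([X1, P0, R1], 0), [(1, B (.F 0) .E ([P0, R1], 0))]),
  (B .H .E ([X1, P1, X0], 1), [(1, B (.F 0) .E ([P1, X0], 1))]),
  (B .H .E ([X1, P1, X0, P0, X0], 0), [(1, B (.F 0) .E ([P1, X0, P0, X0], 0))]),
  (B .H .E ([X1, P1, X0, P0, X1], 0), [(1, B (.F 0) .E ([P1, X0, P0, X1], 0))]),
  (B .H .E ([X1, P1, X0, P1, X0], 0), [(1, B (.F 0) .E ([P1, X0, P1, X0], 0))]),
  (B .H .E ([X1, P1, X0, P1, X1], 0), [(1, B (.F 0) .E ([P1, X0, P1, X1], 0))]),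
  (B .H .E ([X1, P1, X1], 1), [(1, B (.F 0) .E ([P1, X1], 1))]),
  (B .H .E ([X1, P1, X1, P0, X0], 0), [(1, B (.F 0) .E ([P1, X1, P0, X0], 0))]),
  (B .H .E ([X1, P1, X1, P0, X1], 0), [(1, B (.F 0) .E ([P1, X1, P0, X1], 0))]),
  (B .H .E ([X1, P1, X1, P1, X0], 0), [(1, B (.F 0) .E ([P1, X1, P1, X0], 0))]),
  (B .H .E ([X1, P1, X1, P1, X1], 0), [(1, B (.F 0) .E ([P1, X1, P1, X1], 0))]),
  (B .H .E ([X1, P1, R0], 0), [(1, B (.F 0) .E ([P1, R0], 0))]),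
  (B .H .E ([X1, P1, R1], 0), [(1, B (.F 0) .E ([P1, R1], 0))]),
  (B .H .E ([X1, Q0, X0], 0), [(1, B (.F 0) .E ([Q0, X0], 0))]),
  (B .H .E ([X1, Q0, X1], 0), [(1, B (.F 0) .E ([Q0, X1], 0))]),
  (B .H .E ([X1, Q1, X0], 0), [(1, B (.F 0) .E ([Q1, X0], 0))]),
  (B .H .E ([X1, Q1, X1], 0), [(1, B (.F 0) .E ([Q1, X1], 0))]),
  (B .H .E ([X1, Z0], 0), [(1, B (.F 0) .E ([Z0], 0))]),
  (B .H .E ([R0], 1), [(1, S ([P0], 1))]),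
  (B .H .E ([R0, P0, X0], 0), [(1, S ([P0, X0, P0], 0)), (1, S ([P0], 1))]),
  (B .H .E ([R0, P0, X1], 0), [(1, S ([P0, X1, P0], 0))]),
  (B .H .E ([R0, P1, X0], 0), [(1, S ([P0, X0, P1], 0))]),
  (B .H .E ([R0, P1, X1], 0), [(-1, B (.F 0) .E ([Q0, X1], 0)), (1, S ([P1, X1, P0], 0)), (-1, B (.F 1) .E ([Q1, X1], 0)), (1, B .H .E ([Z1, X1], 0))]),
  (B .H .E ([R1], 1), [(1, S ([P1], 1))]),
  (B .H .E ([R1, P0, X0], 0), [(1, B (.F 0) .E ([Q0, X0], 0)), (1, S ([P0, X0, P1], 0)), (1, B (.F 1) .E ([Q1, X0], 0)), (-1, B .H .E ([Z1, X0], 0))]),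
  (B .H .E ([R1, P0, X1], 0), [(1, S ([P1, X1, P0], 0))]),
  (B .H .E ([R1, P1, X0], 0), [(1, S ([P1, X0, P1], 0))]),
  (B .H .E ([R1, P1, X1], 0), [(1, S ([P1], 1)), (1, S ([P1, X1, P1], 0))])]

/-- The homotopy for `(1, 0, 0)`. -/
def h100 : List (Key × Vec) := [
  (B .E (.F 0) ([], 0), [(1, S ([X0], 0))]),
  (B .E (.F 1) ([], 0), [(1, S ([X1], 0))])]

/-- The homotopy for `(1, 0, 1)`. -/
def h101 : List (Key × Vec) := [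
  (B .E (.F 0) ([], 1), [(1, S ([X0], 1))]),
  (B .E (.F 0) ([P0, X0], 0), [(1, S ([X0, P0, X0], 0)), (1, S ([X0], 1))]),
  (B .E (.F 0) ([P0, X1], 0), [(1, S ([X1, P0, X0], 0))]),
  (B .E (.F 0) ([P1, X0], 0), [(1, S ([X0, P1, X0], 0))]),
  (B .E (.F 0) ([P1, X1], 0), [(1, S ([X1, P1, X0], 0)), (1, S ([X0], 1))]),
  (B .E (.F 1) ([], 1), [(1, S ([X1], 1))]),
  (B .E (.F 1) ([P0, X0], 0), [(1, S ([X0, P0, X1], 0)), (1, S ([X1], 1))]),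
  (B .E (.F 1) ([P0, X1], 0), [(1, S ([X1, P0, X1], 0))]),
  (B .E (.F 1) ([P1, X0], 0), [(1, S ([X0, P1, X1], 0))]),
  (B .E (.F 1) ([P1, X1], 0), [(1, S ([X1, P1, X1], 0)), (1, S ([X1], 1))]),
  (B .E .H ([P0], 0), [(-1, S ([R0], 0))]),
  (B .E .H ([P1], 0), [(-1, S ([R1], 0))])]

/-- The homotopy for `(1, 0, 2)`. -/
def h102 : List (Key × Vec) := [
  (S ([X0, P0, X0, P0, X1], 0), [(1, S ([X0, P0, R0], 0)), (1, S ([R0], 1))]),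
  (S ([X0, P0, X1, P1, X0], 0), [(-1, S ([R1], 1)), (-1, S ([X0, P0, R1], 0))]),
  (S ([X0, P0, X1, P1, X1], 0), [(1, S ([R0, P1, X1], 0))]),
  (S ([X1, P1, X0, P0, X0], 0), [(-1, S ([R1, P0, X0], 0))]),
  (S ([X1, P1, X0, P0, X1], 0), [(1, S ([R0], 1)), (1, S ([X1, P1, R0], 0))]),
  (S ([X1, P1, X1, P1, X0], 0), [(-1, S ([R1], 1)), (-1, S ([X1, P1, R1], 0))]),
  (B .E (.F 0) ([], 2), [(1, S ([X0], 2))]),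
  (B .E (.F 0) ([P0, X0], 1), [(1, S ([X0, P0, X0], 1)), (1, S ([X0], 2))]),
  (B .E (.F 0) ([P0, X0, P0, X0], 0), [(1, S ([X0, P0, X0, P0, X0], 0)), (1, S ([X0], 2)), (2, S ([X0, P0, X0], 1))]),
  (B .E (.F 0) ([P0, X0, P0, X1], 0), [(1, S ([X0, P0, X1, P0, X0], 0)), (1, S ([X1, P0, X0], 1))]),
  (B .E (.F 0) ([P0, X0, P1, X0], 0), [(1, S ([X0, P0, X0, P1, X0], 0)), (1, S ([X0, P1, X0], 1))]),
  (B .E (.F 0) ([P0, X0, P1, X1], 0), [(-1, B .E .H ([P0, X0, P1], 0)), (1, S ([X0, P0, X0, P1, X1], 0)), (1, S ([X0, P1, X1], 1))]),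
  (B .E (.F 0) ([P0, X1], 1), [(1, S ([X1, P0, X0], 1))]),
  (B .E (.F 0) ([P0, X1, P0, X0], 0), [(1, S ([X1, P0, X0, P0, X0], 0)), (1, S ([X1, P0, X0], 1))]),
  (B .E (.F 0) ([P0, X1, P0, X1], 0), [(1, S ([X1, P0, X1, P0, X0], 0))]),
  (B .E (.F 0) ([P0, X1, P1, X0], 0), [(1, S ([X1, P0, X0, P1, X0], 0))]),
  (B .E (.F 0) ([P0, X1, P1, X1], 0), [(1, S ([X1, P0, X1, P1, X0], 0)), (1, S ([X1, P0, X0], 1))]),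
  (B .E (.F 0) ([P0, R0], 0), [(1, S ([R0, P0, X0], 0))]),
  (B .E (.F 0) ([P0, R1], 0), [(1, S ([R1], 1)), (1, S ([R0, P1, X0], 0)), (1, S ([X0, P0, R1], 0))]),
  (B .E (.F 0) ([P1, X0], 1), [(1, S ([X0, P1, X0], 1))]),
  (B .E (.F 0) ([P1, X0, P0, X0], 0), [(1, S ([X0, P1, X0, P0, X0], 0)), (1, S ([X0, P1, X0], 1))]),
  (B .E (.F 0) ([P1, X0, P0, X1], 0), [(1, S ([X0, P1, X1, P0, X0], 0))]),
  (B .E (.F 0) ([P1, X0, P1, X0], 0), [(1, S ([X0, P1, X0, P1, X0], 0))]),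
  (B .E (.F 0) ([P1, X0, P1, X1], 0), [(1, S ([X0, P1, X1, P1, X0], 0)), (1, S ([X0, P1, X0], 1))]),
  (B .E (.F 0) ([P1, X1], 1), [(1, S ([X1, P1, X0], 1)), (1, S ([X0], 2))]),
  (B .E (.F 0) ([P1, X1, P0, X0], 0), [(1, B .E (.F 0) ([P1, R0], 0)), (1, S ([X0, P1, X1, P0, X0], 0)), (1, S ([X1, P1, X0], 1)), (1, S ([X0], 2))]),
  (B .E (.F 0) ([P1, X1, P0, X1], 0), [(1, S ([X1, P1, X1, P0, X0], 0)), (1, S ([X1, P0, X0], 1))]),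
  (B .E (.F 0) ([P1, X1, P1, X0], 0), [(1, S ([X1, P1, X0, P1, X0], 0)), (1, S ([X0, P1, X0], 1))]),
  (B .E (.F 0) ([P1, X1, P1, X1], 0), [(-1, B .E .H ([P1, X1, P1], 0)), (1, S ([X1, P1, X0, P1, X1], 0)), (1, S ([X0, P1, X1], 1))]),
  (B .E (.F 0) ([P1, R1], 0), [(1, S ([R1, P1, X0], 0))]),
  (B .E (.F 0) ([Q0, X0], 0), [(1, S ([X0, Q0, X0], 0))]),
  (B .E (.F 0) ([Q0, X1], 0), [(1, S ([R1], 1)), (1, S ([X0, P0, R1], 0)), (1, S ([X0, Q1, X0], 0))]),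
  (B .E (.F 0) ([Q1, X0], 0), [(-1, S ([R1, P0, X0], 0)), (1, S ([X1, Q0, X0], 0))]),
  (B .E (.F 0) ([Q1, X1], 0), [(1, S ([X1, Q1, X0], 0))]),
  (B .E (.F 0) ([Z0], 0), [(1, S ([Z1, X0], 0))]),
  (B .E (.F 1) ([], 2), [(1, S ([X1], 2))]),
  (B .E (.F 1) ([P0, X0], 1), [(1, S ([X0, P0, X1], 1)), (1, S ([X1], 2))]),
  (B .E (.F 1) ([P0, X0, P0, X0], 0), [(1, B .E .H ([P0, X0, P0], 0)), (1, S ([X0, P0, X1, P0, X0], 0)), (1, S ([X1, P0, X0], 1))]),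
  (B .E (.F 1) ([P0, X0, P0, X1], 0), [(1, S ([X0, P0, X1, P0, X1], 0)), (1, S ([X1, P0, X1], 1))]),
  (B .E (.F 1) ([P0, X0, P1, X0], 0), [(1, S ([X0, P0, X0, P1, X1], 0)), (1, S ([X0, P1, X1], 1))]),
  (B .E (.F 1) ([P0, X0, P1, X1], 0), [(-1, B .E (.F 1) ([P0, R1], 0)), (1, S ([X0, P0, X1], 1)), (1, S ([X1], 2)), (1, S ([X1, P0, X0, P1, X1], 0))]),
  (B .E (.F 1) ([P0, X1], 1), [(1, S ([X1, P0, X1], 1))]),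
  (B .E (.F 1) ([P0, X1, P0, X0], 0), [(1, S ([X1, P0, X0, P0, X1], 0)), (1, S ([X1, P0, X1], 1))]),
  (B .E (.F 1) ([P0, X1, P0, X1], 0), [(1, S ([X1, P0, X1, P0, X1], 0))]),
  (B .E (.F 1) ([P0, X1, P1, X0], 0), [(1, S ([X1, P0, X0, P1, X1], 0))]),
  (B .E (.F 1) ([P0, X1, P1, X1], 0), [(1, S ([X1, P0, X1, P1, X1], 0)), (1, S ([X1, P0, X1], 1))]),
  (B .E (.F 1) ([P0, R0], 0), [(1, S ([R0, P0, X1], 0))]),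
  (B .E (.F 1) ([P1, X0], 1), [(1, S ([X0, P1, X1], 1))]),
  (B .E (.F 1) ([P1, X0, P0, X0], 0), [(1, S ([X0, P1, X0, P0, X1], 0)), (1, S ([X0, P1, X1], 1))]),
  (B .E (.F 1) ([P1, X0, P0, X1], 0), [(1, S ([X0, P1, X1, P0, X1], 0))]),
  (B .E (.F 1) ([P1, X0, P1, X0], 0), [(1, S ([X0, P1, X0, P1, X1], 0))]),
  (B .E (.F 1) ([P1, X0, P1, X1], 0), [(1, S ([X0, P1, X1, P1, X1], 0)), (1, S ([X0, P1, X1], 1))]),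
  (B .E (.F 1) ([P1, X1], 1), [(1, S ([X1, P1, X1], 1)), (1, S ([X1], 2))]),
  (B .E (.F 1) ([P1, X1, P0, X0], 0), [(1, B .E .H ([P1, X1, P0], 0)), (1, S ([X1, P1, X1, P0, X0], 0)), (1, S ([X1, P0, X0], 1))]),
  (B .E (.F 1) ([P1, X1, P0, X1], 0), [(1, S ([X1, P1, X1, P0, X1], 0)), (1, S ([X1, P0, X1], 1))]),
  (B .E (.F 1) ([P1, X1, P1, X0], 0), [(1, S ([X1, P1, X0, P1, X1], 0)), (1, S ([X0, P1, X1], 1))]),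
  (B .E (.F 1) ([P1, X1, P1, X1], 0), [(1, S ([X1, P1, X1, P1, X1], 0)), (1, S ([X1], 2)), (2, S ([X1, P1, X1], 1))]),
  (B .E (.F 1) ([P1, R0], 0), [(1, S ([R0], 1)), (1, S ([R1, P0, X1], 0)), (1, S ([X1, P1, R0], 0))]),
  (B .E (.F 1) ([P1, R1], 0), [(1, S ([R1, P1, X1], 0))]),
  (B .E (.F 1) ([Q0, X0], 0), [(1, S ([X0, Q0, X1], 0))]),
  (B .E (.F 1) ([Q0, X1], 0), [(-1, S ([R0, P1, X1], 0)), (1, S ([X0, Q1, X1], 0))]),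
  (B .E (.F 1) ([Q1, X0], 0), [(1, S ([R0], 1)), (1, S ([X1, P1, R0], 0)), (1, S ([X1, Q0, X1], 0))]),
  (B .E (.F 1) ([Q1, X1], 0), [(1, S ([X1, Q1, X1], 0))]),
  (B .E (.F 1) ([Z0], 0), [(1, S ([Z1, X1], 0))]),
  (B .E .H ([P0], 1), [(-1, S ([R0], 1))]),
  (B .E .H ([P0, X1, P0], 0), [(-1, S ([X1, P0, R0], 0))]),
  (B .E .H ([P0, X1, P1], 0), [(-1, S ([X1, P0, R1], 0))]),
  (B .E .H ([P1], 1), [(-1, S ([R1], 1))]),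
  (B .E .H ([P1, X0, P0], 0), [(-1, S ([X0, P1, R0], 0))]),
  (B .E .H ([P1, X0, P1], 0), [(-1, S ([X0, P1, R1], 0))]),
  (B .E .H ([Q0], 0), [(-1, S ([X0, Z0], 0))]),
  (B .E .H ([Q1], 0), [(-1, S ([X1, Z0], 0))])]

/-- The homotopy for `(1, 1, 0)`. -/
def h110 : List (Key × Vec) := [
  (B .E .E ([], 0), [(1, S ([], 0))])]

/-- The homotopy for `(1, 1, 1)`. -/
def h111 : List (Key × Vec) := [
  (B .E .E ([], 1), [(1, S ([], 1))]),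
  (B .E .E ([P0, X0], 0), [(1, S ([X0, P0], 0)), (1, S ([], 1))]),
  (B .E .E ([P0, X1], 0), [(1, S ([X1, P0], 0))]),
  (B .E .E ([P1, X0], 0), [(1, S ([X0, P1], 0))]),
  (B .E .E ([P1, X1], 0), [(1, S ([X1, P1], 0)), (1, S ([], 1))])]

/-- The homotopy for `(1, 1, 2)`. -/
def h112 : List (Key × Vec) := [
  (S ([X0, P0, X1, P1], 0), [(1, S ([R0, P1], 0))]),
  (S ([X1, P1, X0, P0], 0), [(-1, S ([R1, P0], 0))]),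
  (B .E .E ([], 2), [(1, S ([], 2))]),
  (B .E .E ([P0, X0], 1), [(1, S ([X0, P0], 1)), (1, S ([], 2))]),
  (B .E .E ([P0, X0, P0, X0], 0), [(1, S ([X0, P0, X0, P0], 0)), (1, S ([], 2)), (2, S ([X0, P0], 1))]),
  (B .E .E ([P0, X0, P0, X1], 0), [(1, S ([X0, P0, X1, P0], 0)), (1, S ([X1, P0], 1))]),
  (B .E .E ([P0, X0, P1, X0], 0), [(1, S ([X0, P0, X0, P1], 0)), (1, S ([X0, P1], 1))]),
  (B .E .E ([P0, X0, P1, X1], 0), [(-1, B .E .E ([P0, R1], 0)), (1, S ([X0, P0], 1)), (1, S ([], 2)), (1, S ([X1, P0, X0, P1], 0))]),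
  (B .E .E ([P0, X1], 1), [(1, S ([X1, P0], 1))]),
  (B .E .E ([P0, X1, P0, X0], 0), [(1, S ([X1, P0, X0, P0], 0)), (1, S ([X1, P0], 1))]),
  (B .E .E ([P0, X1, P0, X1], 0), [(1, S ([X1, P0, X1, P0], 0))]),
  (B .E .E ([P0, X1, P1, X0], 0), [(1, S ([X1, P0, X0, P1], 0))]),
  (B .E .E ([P0, X1, P1, X1], 0), [(1, S ([X1, P0, X1, P1], 0)), (1, S ([X1, P0], 1))]),
  (B .E .E ([P0, R0], 0), [(1, S ([R0, P0], 0))]),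
  (B .E .E ([P1, X0], 1), [(1, S ([X0, P1], 1))]),
  (B .E .E ([P1, X0, P0, X0], 0), [(1, S ([X0, P1, X0, P0], 0)), (1, S ([X0, P1], 1))]),
  (B .E .E ([P1, X0, P0, X1], 0), [(1, S ([X0, P1, X1, P0], 0))]),
  (B .E .E ([P1, X0, P1, X0], 0), [(1, S ([X0, P1, X0, P1], 0))]),
  (B .E .E ([P1, X0, P1, X1], 0), [(1, S ([X0, P1, X1, P1], 0)), (1, S ([X0, P1], 1))]),
  (B .E .E ([P1, X1], 1), [(1, S ([X1, P1], 1)), (1, S ([], 2))]),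
  (B .E .E ([P1, X1, P0, X0], 0), [(1, B .E .E ([P1, R0], 0)), (1, S ([X0, P1, X1, P0], 0)), (1, S ([X1, P1], 1)), (1, S ([], 2))]),
  (B .E .E ([P1, X1, P0, X1], 0), [(1, S ([X1, P1, X1, P0], 0)), (1, S ([X1, P0], 1))]),
  (B .E .E ([P1, X1, P1, X0], 0), [(1, S ([X1, P1, X0, P1], 0)), (1, S ([X0, P1], 1))]),
  (B .E .E ([P1, X1, P1, X1], 0), [(1, S ([X1, P1, X1, P1], 0)), (1, S ([], 2)), (2, S ([X1, P1], 1))]),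
  (B .E .E ([P1, R1], 0), [(1, S ([R1, P1], 0))]),
  (B .E .E ([Q0, X0], 0), [(1, S ([X0, Q0], 0))]),
  (B .E .E ([Q0, X1], 0), [(1, S ([X0, Q1], 0)), (-1, S ([R0, P1], 0))]),
  (B .E .E ([Q1, X0], 0), [(-1, S ([R1, P0], 0)), (1, S ([X1, Q0], 0))]),
  (B .E .E ([Q1, X1], 0), [(1, S ([X1, Q1], 0))]),
  (B .E .E ([Z0], 0), [(1, S ([Z1], 0))])]

/-- The table of a cone. -/
def table : Fin 2 → Fin 2 → ℕ → List (Key × Vec)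
  | 0, 0, 0 => h000
  | 0, 0, 1 => h001
  | 0, 0, 2 => h002
  | 0, 1, 0 => h010
  | 0, 1, 1 => h011
  | 0, 1, 2 => h012
  | 1, 0, 0 => h100
  | 1, 0, 1 => h101
  | 1, 0, 2 => h102
  | 1, 1, 0 => h110
  | 1, 1, 1 => h111
  | 1, 1, 2 => h112
  | _, _, _ => []

end P195.Cert.Data
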