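import Vale.Agent.P195.Algebra.Model

/-!
P195: the statement of the twelve finite certificates (`Φ` is fully faithful modulo `u`).

`K0 B = d B + sg(B) N + N B`; the cone of `Φ` has differential
`(α, B) ↦ (d α, J (Φ α - K0 B))`.
-/

namespace P195.Cert

open P195.Algebra

variable (k : Type) [Field k]

/-- `Φ` modulo `u`. -/
noncomputable def phi0 (α : F k) : Matrix LC LC (F k) := fun c c' => Lam.re k (phiF k α c c')

/-- `Φ` modulo `u` on the rows at `a'` and the columns at `a`. -/
noncomputable def phiB (a' a : Fin 2) (α : F k) : Matrix LC LC (F k) :=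
  fun c c' => if c.rv = a' ∧ c'.rv = a then phi0 k α c c' else 0

/-- `N` modulo `u`. -/
noncomputable def n0 : Matrix LC LC (F k) := fun c c' => Lam.re k (Nm k c c')

/-- The differential of the matrices. -/
noncomputable def K0 (B : Matrix LC LC (F k)) : Matrix LC LC (F k) :=
  fun c c' => dF k (B c c') + ∑ m, sg k (B c m) * n0 k m c' + ∑ m, n0 k c m * B m c'

/-- Supported from `a` to `a'` in window degree `Δ` and degree `n`. -/
def InF (a' a : Fin 2) (Δ n : ℤ) (x : F k) : Prop :=
  x ∈ supF k a' a Δ ∧ part degHom n x = x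

/-- A matrix between the cells at `a` and at `a'`. -/
def InM (a' a : Fin 2) (Δ n : ℤ) (B : Matrix LC LC (F k)) : Prop :=
  ∀ c c', (c.rv = a' ∧ c'.rv = a → InF k c.lv c'.lv Δ (n + c.deg - c'.deg) (B c c')) ∧
    (¬(c.rv = a' ∧ c'.rv = a) → B c c' = 0)

/-- The cone of `Φ` is exact at this place. -/
def ConeExact (a' a : Fin 2) (Δ n : ℤ) : Prop :=
  ∀ α B, InF k a' a Δ n α → InM k a' a Δ (n + 1) B → dF k α = 0 → K0 k B = phiB k a' a α →
    ∃ α' B', InF k a' a Δ (n + 1) α' ∧ InM k a' a Δ (n + 2) B' ∧ dF k α' = α ∧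
      ∀ c c', B c c' = LC.sgn k c • (phiB k a' a α' c c' - K0 k B' c c')

/- Proved as `coneExact` in `Cert/Exact.lean`. -/

end P195.Cert
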