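import Vale.Agent.P195.Cert.Comp

/-!
P195 certificates: the finite basis of each cone and the Boolean checks.
-/

namespace P195.Cert

open P195.Algebra

/-- The window degree of a word. -/
def wsum (w : List Gen) : ℕ := (w.map Gen.wt).sum

/-- Composability, decided. -/
def pathB : Fin 2 → Fin 2 → List Gen → Bool
  | a', a, [] => decide (a' = a)
  | a', a, g :: w => decide (g.tgt = a') && pathB g.src a w

theorem pathB_iff : ∀ {a' a : Fin 2} {w : List Gen}, pathB a' a w = true ↔ Algebra.Path a' a w
  | a', a, [] => by simp [pathB, Algebra.Path]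
  | a', a, g :: w => by simp [pathB, Algebra.Path, pathB_iff]

/-- All generators. -/
def gens : List Gen :=
  [.x 0, .x 1, .p 0, .p 1, .r 0, .r 1, .q 0, .q 1, .z 0, .z 1]

theorem mem_gens (g : Gen) : g ∈ gens := by
  revert g; decide

/-- Paths of bounded length and window degree, completed by a power of `t`. -/
def paths : ℕ → Fin 2 → Fin 2 → ℕ → List Mo
  | 0, a', a, B => if a' = a then [([], B)] else []
  | n + 1, a', a, B => (if a' = a then [([], B)] else []) ++
      gens.flatMap fun g =>
        if g.tgt = a' ∧ g.wt ≤ B then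
          (paths n g.src a (B - g.wt)).map fun m => (g :: m.1, m.2)
        else []

theorem mem_paths : ∀ {n : ℕ} {a' a : Fin 2} {B : ℕ} {w : List Gen}, Algebra.Path a' a w → w.length ≤ n →
    wsum w ≤ B → (w, B - wsum w) ∈ paths n a' a B := by
  intro n
  induction n with
  | zero =>
    intro a' a B w hp hl _
    obtain rfl : w = [] := List.length_eq_zero_iff.1 (Nat.le_zero.1 hl)
    rw [Algebra.Path] at hp
    simp [paths, hp, wsum]
  | succ n ih =>
    intro a' a B w hp hl hw
    match w with
    | [] => rw [Algebra.Path] at hp; simp [paths, hp, wsum]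
    | g :: w =>
      obtain ⟨hg, hp⟩ := hp
      have hs : wsum (g :: w) = g.wt + wsum w := by simp [wsum]
      rw [hs] at hw
      have := ih hp (by simpa using hl) (show wsum w ≤ B - g.wt by omega)
      rw [paths, List.mem_append]
      refine Or.inr (List.mem_flatMap.2 ⟨g, mem_gens g, ?_⟩)
      rw [if_pos ⟨hg, by omega⟩, List.mem_map]
      exact ⟨_, this, by simp [hs, Nat.sub_sub]⟩

theorem path_length_le : ∀ {a' a : Fin 2} {w : List Gen}, Algebra.Path a' a w →
    w.length ≤ 2 * wsum w + a'.val
  | _, _, [], _ => by simp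
  | a', a, g :: w, h => by
    obtain ⟨hg, hp⟩ := h
    have := path_length_le hp
    subst hg
    rcases g with i | i | i | i | i <;>
      simp_all [wsum, Gen.wt, Gen.src, Gen.tgt] <;> omega

/-- The degree of a basis element. -/
def kdeg : Key → ℤ
  | .inl m => wdeg m.1
  | .inr (c, c', m) => (wdeg m.1 : ℤ) - c.deg + c'.deg - 1

/-- The supports of the cone. -/
def validK (a' a : Fin 2) (D : ℕ) : Key → Bool
  | .inl m => pathB a' a m.1 && decide (wsum m.1 + m.2 = D)
  | .inr (c, c', m) => decide (c.rv = a' ∧ c'.rv = a) && pathB c.lv c'.lv m.1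
      && decide (wsum m.1 + m.2 = D)

/-- The basis. -/
def keys (a' a : Fin 2) (D : ℕ) : List Key :=
  (paths (2 * D + 1) a' a D).map .inl ++ LCs.flatMap fun c => LCs.flatMap fun c' =>
    if c.rv = a' ∧ c'.rv = a then
      (paths (2 * D + 1) c.lv c'.lv D).map fun m => .inr (c, c', m)
    else []

theorem mem_LCs (c : LC) : c ∈ LCs := by revert c; decide

theorem mem_keys {a' a : Fin 2} {D : ℕ} {x : Key} (h : validK a' a D x = true) :
    x ∈ keys a' a D := by
  have hpath : ∀ {b' b : Fin 2} {m : Mo}, Algebra.Path b' b m.1 → wsum m.1 + m.2 = D →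
      m ∈ paths (2 * D + 1) b' b D := by
    intro b' b m hp hD
    have hl := path_length_le hp
    have := b'.isLt
    have := mem_paths (n := 2 * D + 1) (B := D) hp (by omega) (by omega)
    rwa [show D - wsum m.1 = m.2 by omega] at this
  rcases x with m | ⟨c, c', m⟩
  · simp only [validK, Bool.and_eq_true, pathB_iff, decide_eq_true_eq] at h
    exact List.mem_append_left _ (List.mem_map_of_mem (hpath h.1 h.2))
  · simp only [validK, Bool.and_eq_true, pathB_iff, decide_eq_true_eq] at h
    refine List.mem_append_right _ (List.mem_flatMap.2 ⟨c, mem_LCs c,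
      List.mem_flatMap.2 ⟨c', mem_LCs c', ?_⟩⟩)
    rw [if_pos h.1.1]
    exact List.mem_map.2 ⟨m, hpath h.1.2 h.2, rfl⟩

/-- The value of the homotopy on a basis element. -/
def hK (tbl : List (Key × Vec)) (x : Key) : Vec :=
  match tbl.find? fun p => decide (p.1 = x) with
  | some p => p.2
  | none => []

/-- All coefficients vanish. -/
def vanishes (l : Vec) : Bool :=
  l.all fun p => decide (((l.filter fun q => decide (q.2 = p.2)).map Prod.fst).sum = 0)

/-- A multiple of a vector. -/
def scaleV (c : ℤ) (l : Vec) : Vec := l.map fun x => (c * x.1, x.2)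

/-- Linear extension. -/
def applyV (f : Key → Vec) (l : Vec) : Vec := l.flatMap fun x => scaleV x.1 (f x.2)

/-- `dh + hd = 1` at a basis element, and `h` raises the degree by one. -/
def checkAt (a' a : Fin 2) (D : ℕ) (tbl : List (Key × Vec)) (x : Key) : Bool :=
  vanishes ((-1, x) :: (applyV (dK a' a) (hK tbl x) ++ applyV (hK tbl) (dK a' a x))) &&
    (hK tbl x).all fun y => validK a' a D y.2 && decide (kdeg y.2 = kdeg x + 1)

/-- The check of a whole cone. -/
def check (a' a : Fin 2) (D : ℕ) (tbl : List (Key × Vec)) : Bool :=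
  (keys a' a D).all (checkAt a' a D tbl)

end P195.Cert
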