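import Vale.Agent.P195.Cert.Check

/-!
P195 certificates: the twelve cones of `Φ` modulo `u` are exact.
-/

namespace P195.Cert

open P195.Algebra

variable (k : Type) [Field k]

/-- The space of the cone. -/
abbrev W := F k × Matrix LC LC (F k)

/-- A basis element. -/
noncomputable def vecOf : Key → W k
  | .inl m => (mono k m, 0)
  | .inr (c, c', m) => (0, Matrix.single c c' (mono k m))

/-- Evaluation of a vector. -/
noncomputable def evV (l : Vec) : W k := (l.map fun x => (x.1 : k) • vecOf k x.2).sum

/-- The differential of the matrices, as a linear map. -/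
noncomputable def K0L : Matrix LC LC (F k) →ₗ[k] Matrix LC LC (F k) where
  toFun := K0 k
  map_add' A B := by
    refine funext₂ fun c c' => ?_
    show dF k (A c c' + B c c') + ∑ m, sg k (A c m + B c m) * n0 k m c'
        + ∑ m, n0 k c m * (A m c' + B m c') =
      (dF k (A c c') + ∑ m, sg k (A c m) * n0 k m c' + ∑ m, n0 k c m * A m c') +
        (dF k (B c c') + ∑ m, sg k (B c m) * n0 k m c' + ∑ m, n0 k c m * B m c')
    rw [(dF k).map_add, Finset.sum_congr rfl fun m _ => (by rw [map_add (sg k), add_mul] :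
        sg k (A c m + B c m) * n0 k m c' = _),
      Finset.sum_congr rfl fun m _ => mul_add (n0 k c m) _ _, Finset.sum_add_distrib,
      Finset.sum_add_distrib]
    abel
  map_smul' r A := by
    refine funext₂ fun c c' => ?_
    show dF k (r • A c c') + ∑ m, sg k (r • A c m) * n0 k m c' + ∑ m, n0 k c m * (r • A m c') =
      r • (dF k (A c c') + ∑ m, sg k (A c m) * n0 k m c' + ∑ m, n0 k c m * A m c')
    rw [smul_add, smul_add, Finset.smul_sum, Finset.smul_sum, (dF k).map_smul]
    refine congrArg₂ (· + ·) (congrArg₂ (· + ·) rfl (Finset.sum_congr rfl fun m _ => ?_))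
      (Finset.sum_congr rfl fun m _ => ?_)
    · rw [map_smul (sg k)]; exact smul_mul_assoc r _ _
    · exact mul_smul_comm r _ _

/-- The differential of the cone. -/
noncomputable def coneD (a' a : Fin 2) : W k →ₗ[k] W k where
  toFun x :=
    (dF k x.1, Matrix.of fun c c' => LC.sgn k c • (phiB k a' a x.1 c c' - K0L k x.2 c c'))
  map_add' x y := by
    refine Prod.ext (map_add _ _ _) (Matrix.ext fun c c' => ?_)
    simp only [Prod.fst_add, Prod.snd_add, map_add, Matrix.add_apply, Matrix.of_apply]
    rw [← smul_add]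
    congr 1
    simp only [phiB, ← phi0L_apply, map_add, Matrix.add_apply]
    split_ifs <;> abel
  map_smul' r x := by
    refine Prod.ext (map_smul _ _ _) (Matrix.ext fun c c' => ?_)
    simp only [Prod.smul_fst, Prod.smul_snd, map_smul, Matrix.smul_apply, Matrix.of_apply,
      RingHom.id_apply]
    simp only [phiB, ← phi0L_apply, map_smul, Matrix.smul_apply]
    rw [smul_comm r]
    congr 1
    split_ifs
    · rw [smul_sub]
    · rw [smul_sub, smul_zero]

variable {k}

@[simp] theorem evV_nil : evV k [] = 0 := by simp [evV]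

@[simp] theorem evV_cons (x : ℤ × Key) (l : Vec) :
    evV k (x :: l) = (x.1 : k) • vecOf k x.2 + evV k l := by simp [evV]

@[simp] theorem evV_append (l l' : Vec) : evV k (l ++ l') = evV k l + evV k l' := by simp [evV]

theorem evV_flatMap {α : Type} (l : List α) (f : α → Vec) :
    evV k (l.flatMap f) = (l.map fun a => evV k (f a)).sum := by
  induction l with
  | nil => simp
  | cons a l ih => simp [ih]

@[simp] theorem evV_scaleV (c : ℤ) (l : Vec) : evV k (scaleV c l) = (c : k) • evV k l := by
  induction l with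
  | nil => simp [scaleV]
  | cons x l ih =>
    simp only [scaleV, List.map_cons] at ih ⊢
    rw [evV_cons, evV_cons, ih, smul_add, smul_smul, Int.cast_mul]

theorem evV_inl (p : Poly) :
    evV k (p.map fun x => (x.1, Sum.inl x.2)) = (ev k p, 0) := by
  induction p with
  | nil => simp; rfl
  | cons x p ih => rw [List.map_cons, evV_cons, ih, ev_cons]; simp [vecOf]

theorem evV_atEntry (c c' : LC) (p : Poly) :
    evV k (atEntry c c' p) = (0, Matrix.single c c' (ev k p)) := by
  induction p with
  | nil => simp [atEntry]; rfl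
  | cons x p ih =>
    simp only [atEntry, List.map_cons] at ih ⊢
    rw [evV_cons, ih, ev_cons]
    simp [vecOf, Matrix.smul_single, Matrix.single_add]

theorem evV_LCs (f : LC → Vec) : evV k (LCs.flatMap f) = ∑ c, evV k (f c) := by
  rw [evV_flatMap, sum_LC]

theorem coneD_vecOf (a' a : Fin 2) (x : Key) :
    coneD k a' a (vecOf k x) = evV k (dK a' a x) := by
  rcases x with m | ⟨c, c', m⟩
  · simp only [dK, evV_append, evV_inl, evV_LCs, evV_atEntry, ev_dM]
    refine Prod.ext ?_ (Matrix.ext fun u v => ?_)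
    · simp [coneD, vecOf, Prod.fst_sum]
    · simp only [coneD, vecOf, LinearMap.coe_mk, AddHom.coe_mk, Prod.snd_add, Prod.snd_sum,
        Matrix.of_apply, Matrix.add_apply, Matrix.sum_apply, Matrix.single_apply, map_zero,
        Matrix.zero_apply,
        sub_zero, zero_add]
      rw [Finset.sum_eq_single u (fun b _ hb => by simp [hb]) (by simp)]
      rw [Finset.sum_eq_single v (fun b _ hb => by simp [hb]) (by simp)]
      simp only [and_self, if_true, phiB]
      split_ifs <;> simp [ev_phiM, csg_cast]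
  · simp only [dK, evV_append, evV_LCs, evV_atEntry, ev_smulP, ev_mulP, ev_dM, ev_cons, ev_nil,
      ev_n0P, add_zero, Int.cast_mul, Int.cast_neg, Int.cast_pow, Int.cast_one, csg_cast,
      one_smul]
    refine Prod.ext ?_ (Matrix.ext fun u v => ?_)
    · simp [coneD, vecOf, Prod.fst_sum]
    · simp only [coneD, vecOf, LinearMap.coe_mk, AddHom.coe_mk, Prod.snd_add, Prod.snd_sum,
        Matrix.of_apply, Matrix.add_apply, Matrix.sum_apply, Matrix.single_apply]
      have hphi : phiB k a' a (0 : F k) u v = 0 := by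
        simp [phiB, ← phi0L_apply]
      show LC.sgn k u • (phiB k a' a (0 : F k) u v - K0 k (Matrix.single c c' (mono k m)) u v) = _
      rw [hphi]
      simp only [K0, Matrix.single_apply]
      by_cases hu : c = u <;> by_cases hv : c' = v <;>
        simp [hu, hv, apply_ite (sg k), sg_mono, smul_smul, smul_add] <;>
        (try subst hu) <;> (try subst hv) <;> abel

theorem evV_applyV_dK (a' a : Fin 2) (l : Vec) :
    evV k (applyV (dK a' a) l) = coneD k a' a (evV k l) := by
  induction l with
  | nil => simp [applyV]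
  | cons x l ih =>
    simp only [applyV, List.flatMap_cons] at ih ⊢
    rw [evV_append, ih, evV_scaleV, evV_cons, map_add, map_smul, coneD_vecOf]

/-- The coefficients of a vector. -/
noncomputable def coefs (l : Vec) : Key →₀ ℤ := (l.map fun p => Finsupp.single p.2 p.1).sum

theorem evV_eq_coefs (l : Vec) :
    evV k l = (coefs l).sum fun x r => (r : k) • vecOf k x := by
  induction l with
  | nil => simp [coefs]
  | cons p l ih =>
    rw [evV_cons, ih]
    unfold coefs
    rw [List.map_cons, List.sum_cons,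
      Finsupp.sum_add_index' (h := fun x (r : ℤ) => (r : k) • vecOf k x) (fun _ => by simp)
        (fun _ _ _ => by simp [add_smul]), Finsupp.sum_single_index (by simp)]

theorem coefs_apply (l : Vec) (x : Key) :
    coefs l x = ((l.filter fun q => decide (q.2 = x)).map Prod.fst).sum := by
  induction l with
  | nil => simp [coefs]
  | cons p l ih =>
    unfold coefs at ih ⊢
    rw [List.map_cons, List.sum_cons, Finsupp.add_apply, ih, Finsupp.single_apply]
    by_cases hp : p.2 = x <;> simp [hp]

theorem evV_eq_zero {l : Vec} (h : vanishes l = true) : evV k l = 0 := by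
  have h0 : coefs l = 0 := by
    ext x
    rw [coefs_apply]
    by_cases hx : ∃ p ∈ l, p.2 = x
    · obtain ⟨p, hp, rfl⟩ := hx
      have := List.all_eq_true.1 h p hp
      simpa using this
    · push Not at hx
      have : (l.filter fun q => decide (q.2 = x)) = [] :=
        List.filter_eq_nil_iff.2 fun q hq => by simpa using hx q hq
      simp [this]
  rw [evV_eq_coefs, h0, Finsupp.sum_zero_index]

variable (k)

/-- The monomial of an element of the monoid. -/
def unmon (m : M) : Mo := (FreeMonoid.toList m.1, Multiplicative.toAdd m.2)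

/-- Linear extension from monomials. -/
noncomputable def onF (f : Mo → W k) : F k →ₗ[k] W k :=
  (Finsupp.linearCombination k fun m => f (unmon m)) ∘ₗ
    (MonoidAlgebra.coeffLinearEquiv k (S := k) (M := M)).toLinearMap

/-- The homotopy as a linear map. -/
noncomputable def hL (tbl : List (Key × Vec)) : W k →ₗ[k] W k :=
  onF k (fun m => evV k (hK tbl (.inl m))) ∘ₗ LinearMap.fst k _ _ +
    ∑ c : LC, ∑ c' : LC, (onF k fun m => evV k (hK tbl (.inr (c, c', m)))) ∘ₗ
      (Matrix.entryLinearMap k (F k) c c') ∘ₗ LinearMap.snd k _ _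

variable {k}

theorem onF_mono (f : Mo → W k) (m : Mo) : onF k f (mono k m) = f m := by
  show Finsupp.linearCombination k (fun m => f (unmon m)) (Finsupp.single (mon m) 1) = f m
  simp [unmon, mon]

theorem hL_vecOf (tbl : List (Key × Vec)) (x : Key) :
    hL k tbl (vecOf k x) = evV k (hK tbl x) := by
  rcases x with m | ⟨c, c', m⟩
  · simp [hL, vecOf, onF_mono]
  · simp only [hL, vecOf, LinearMap.add_apply, LinearMap.comp_apply, LinearMap.fst_apply, map_zero,
      zero_add, LinearMap.sum_apply, LinearMap.snd_apply, Matrix.entryLinearMap_apply]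
    rw [Finset.sum_eq_single c (fun b _ hb => by simp [Ne.symm hb]) (by simp),
      Finset.sum_eq_single c' (fun b _ hb => by simp [Ne.symm hb]) (by simp)]
    simp [onF_mono]

theorem evV_applyV_hK (tbl : List (Key × Vec)) (l : Vec) :
    evV k (applyV (hK tbl) l) = hL k tbl (evV k l) := by
  induction l with
  | nil => simp [applyV]
  | cons x l ih =>
    simp only [applyV, List.flatMap_cons] at ih ⊢
    rw [evV_append, ih, evV_scaleV, evV_cons, map_add, map_smul, hL_vecOf]

variable (k)

/-- The span of the basis in degree `n`. -/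
noncomputable def piece (a' a : Fin 2) (D : ℕ) (n : ℤ) : Submodule k (W k) :=
  Submodule.span k (vecOf k '' {x | validK a' a D x = true ∧ kdeg x = n})

variable {k}

theorem evV_mem {a' a : Fin 2} {D : ℕ} {n : ℤ} {l : Vec}
    (h : ∀ y ∈ l, validK a' a D y.2 = true ∧ kdeg y.2 = n) : evV k l ∈ piece k a' a D n :=
  list_sum_mem fun x hx => by
    obtain ⟨y, hy, rfl⟩ := List.mem_map.1 hx
    exact Submodule.smul_mem _ _ (Submodule.subset_span ⟨_, h y hy, rfl⟩)

theorem homotopy {a' a : Fin 2} {D : ℕ} (hD : D < 3) {n : ℤ} {x : W k}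
    (hx : x ∈ piece k a' a D n) :
    hL k (Data.table a' a D) x ∈ piece k a' a D (n + 1) ∧
      coneD k a' a (hL k (Data.table a' a D) x) + hL k (Data.table a' a D) (coneD k a' a x) = x := by
  set tbl := Data.table a' a D with htbl
  induction hx using Submodule.span_induction with
  | mem y hy =>
    obtain ⟨key, ⟨hv, hn⟩, rfl⟩ := hy
    have hc := List.all_eq_true.1 (check_all D hD a' a) key (mem_keys hv)
    simp only [checkAt, Bool.and_eq_true] at hc
    refine ⟨?_, ?_⟩
    · rw [hL_vecOf]
      refine evV_mem fun z hz => ?_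
      have := List.all_eq_true.1 hc.2 z hz
      simp only [Bool.and_eq_true, decide_eq_true_eq] at this
      exact ⟨this.1, by rw [this.2, hn]⟩
    · have := evV_eq_zero (k := k) hc.1
      rw [evV_cons, evV_append, evV_applyV_dK, evV_applyV_hK, ← hL_vecOf, ← coneD_vecOf,
        Int.cast_neg, Int.cast_one, neg_one_smul, neg_add_eq_zero] at this
      exact this.symm
  | zero => exact ⟨by simp, by simp⟩
  | add y z _ _ hy hz =>
    refine ⟨by rw [map_add]; exact add_mem hy.1 hz.1, ?_⟩
    conv_rhs => rw [← hy.2, ← hz.2]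
    simp only [map_add]
    abel
  | smul r y _ hy =>
    refine ⟨by rw [map_smul]; exact Submodule.smul_mem _ r hy.1, ?_⟩
    conv_rhs => rw [← hy.2]
    simp only [map_smul, smul_add]

theorem degOf_mon (m : Mo) : degOf degHom (mon m) = (wdeg m.1 : ℤ) := by
  rw [degOf_eq]; simp [mdeg, mon]

theorem mwt_mon (m : Mo) : mwt (mon m) = wsum m.1 + m.2 := by
  simp [mwt, mon, wsum, add_comm]

/-- Membership of a monomial. -/
theorem inF_mono {a' a : Fin 2} {D : ℕ} {n : ℤ} {m : Mo} (hp : Path a' a m.1)
    (hw : wsum m.1 + m.2 = D) (hn : (wdeg m.1 : ℤ) = n) : InF k a' a D n (mono k m) := by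
  refine ⟨supF_single k 1 ⟨by simpa [mon] using hp, by rw [mwt_mon, hw]⟩, ?_⟩
  rw [mono, part_single, degOf_mon, if_pos hn]

theorem piece_in {a' a : Fin 2} {D : ℕ} {n : ℤ} {x : W k} (hx : x ∈ piece k a' a D n) :
    InF k a' a D n x.1 ∧ InM k a' a D (n + 1) x.2 := by
  induction hx using Submodule.span_induction with
  | mem y hy =>
    obtain ⟨key, ⟨hv, hn⟩, rfl⟩ := hy
    rcases key with m | ⟨c, c', m⟩
    · simp only [validK, Bool.and_eq_true, pathB_iff, decide_eq_true_eq] at hv
      refine ⟨inF_mono hv.1 hv.2 hn, fun u v => ⟨fun _ => ?_, fun _ => rfl⟩⟩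
      exact ⟨Submodule.zero_mem _, map_zero _⟩
    · simp only [validK, Bool.and_eq_true, pathB_iff, decide_eq_true_eq] at hv
      refine ⟨⟨Submodule.zero_mem _, map_zero _⟩, fun u v => ⟨fun _ => ?_, fun hb => ?_⟩⟩
      · simp only [vecOf, Matrix.single_apply]
        split_ifs with h
        · obtain ⟨rfl, rfl⟩ := h
          exact inF_mono hv.1.2 hv.2 (by simp only [kdeg] at hn; omega)
        · exact ⟨Submodule.zero_mem _, map_zero _⟩
      · simp only [vecOf, Matrix.single_apply]
        rw [if_neg fun (h : c = u ∧ c' = v) => hb ⟨h.1 ▸ hv.1.1.1, h.2 ▸ hv.1.1.2⟩]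
  | zero => exact ⟨⟨Submodule.zero_mem _, map_zero _⟩,
      fun u v => ⟨fun _ => ⟨Submodule.zero_mem _, map_zero _⟩, fun _ => rfl⟩⟩
  | add y z _ _ hy hz =>
    refine ⟨⟨add_mem hy.1.1 hz.1.1, by rw [Prod.fst_add, map_add, hy.1.2, hz.1.2]⟩,
      fun u v => ⟨fun h => ⟨?_, ?_⟩, fun h => ?_⟩⟩
    · exact add_mem ((hy.2 u v).1 h).1 ((hz.2 u v).1 h).1
    · rw [Prod.snd_add, Matrix.add_apply, map_add, ((hy.2 u v).1 h).2, ((hz.2 u v).1 h).2]
    · rw [Prod.snd_add, Matrix.add_apply, (hy.2 u v).2 h, (hz.2 u v).2 h, add_zero]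
  | smul r y _ hy =>
    refine ⟨⟨Submodule.smul_mem _ r hy.1.1, by rw [Prod.smul_fst, map_smul, hy.1.2]⟩,
      fun u v => ⟨fun h => ⟨?_, ?_⟩, fun h => ?_⟩⟩
    · exact Submodule.smul_mem _ r ((hy.2 u v).1 h).1
    · rw [Prod.smul_snd, Matrix.smul_apply, map_smul, ((hy.2 u v).1 h).2]
    · rw [Prod.smul_snd, Matrix.smul_apply, (hy.2 u v).2 h, smul_zero]

theorem in_of_InF {a' a : Fin 2} {D : ℕ} {n : ℤ} {x : F k} (hx : InF k a' a D n x)
    (T : F k →ₗ[k] W k) (S : Submodule k (W k))
    (h : ∀ m : Mo, Path a' a m.1 → wsum m.1 + m.2 = D → (wdeg m.1 : ℤ) = n → T (mono k m) ∈ S) :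
    T x ∈ S := by
  rw [← MonoidAlgebra.sum_coeff_single x, map_finsuppSum]
  refine Submodule.sum_mem _ fun m hm => ?_
  obtain ⟨hp, hw⟩ := (MonoidAlgebra.mem_supported.1 hx.1) hm
  have hd : degOf degHom m = n := by
    by_contra hd
    have := congrArg (fun y : F k => y.coeff m) hx.2
    rw [part_apply, if_neg hd] at this
    exact Finsupp.mem_support_iff.1 hm this.symm
  have hmon : mon (unmon m) = m := by simp [mon, unmon]
  show T (MonoidAlgebra.single m (x.coeff m)) ∈ S
  have e : (MonoidAlgebra.single m (x.coeff m) : F k) = x.coeff m • mono k (unmon m) := by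
    rw [mono, hmon, MonoidAlgebra.smul_single, smul_eq_mul, mul_one]
  rw [e, map_smul]
  refine Submodule.smul_mem _ _ (h _ hp ?_ ?_)
  · have := hw
    rw [← hmon, mwt_mon] at this
    exact_mod_cast this
  · rw [← hd, ← degOf_mon, hmon]

theorem mem_piece {a' a : Fin 2} {D : ℕ} {n : ℤ} {α : F k} {B : Matrix LC LC (F k)}
    (hα : InF k a' a D n α) (hB : InM k a' a D (n + 1) B) : (α, B) ∈ piece k a' a D n := by
  have h1 : LinearMap.inl k (F k) (Matrix LC LC (F k)) α ∈ piece k a' a D n := by
    refine in_of_InF hα _ _ fun m hp hw hn => Submodule.subset_span ⟨.inl m, ⟨?_, hn⟩, rfl⟩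
    simp [validK, pathB_iff, hp, hw]
  have h2 : ∀ c c', (LinearMap.inr k (F k) (Matrix LC LC (F k)) ∘ₗ
      Matrix.singleLinearMap k c c') (B c c') ∈ piece k a' a D n := by
    intro c c'
    by_cases hb : c.rv = a' ∧ c'.rv = a
    · refine in_of_InF ((hB c c').1 hb) _ _ fun m hp hw hn =>
        Submodule.subset_span ⟨.inr (c, c', m), ⟨?_, ?_⟩, rfl⟩
      · simp [validK, pathB_iff, hp, hw, hb]
      · simp only [kdeg]; omega
    · rw [(hB c c').2 hb, map_zero]
      exact Submodule.zero_mem _
  have e : (α, B) = LinearMap.inl k (F k) (Matrix LC LC (F k)) α + ∑ c, ∑ c',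
      (LinearMap.inr k (F k) (Matrix LC LC (F k)) ∘ₗ Matrix.singleLinearMap k c c') (B c c') := by
    simp only [LinearMap.comp_apply, ← map_sum]
    simp [← Matrix.matrix_eq_sum_single]
  rw [e]
  exact add_mem h1 (Submodule.sum_mem _ fun c _ => Submodule.sum_mem _ fun c' _ => h2 c c')

variable (k)

/-- The cones are exact. -/
theorem coneExact (a' a : Fin 2) (Δ : ℕ) (hΔ : Δ ≤ 2) (n : ℤ) : ConeExact k a' a Δ n := by
  intro α B hα hB hd hK
  obtain ⟨hmem, heq⟩ := homotopy (k := k) (show Δ < 3 by omega) (mem_piece hα hB)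
  have h0 : coneD k a' a (α, B) = 0 := by
    refine Prod.ext hd (Matrix.ext fun c c' => ?_)
    show LC.sgn k c • (phiB k a' a α c c' - K0 k B c c') = 0
    rw [hK, sub_self, smul_zero]
  rw [h0, map_zero, add_zero] at heq
  set y := hL k (Data.table a' a Δ) (α, B)
  obtain ⟨h1, h2⟩ := piece_in hmem
  refine ⟨y.1, y.2, h1, ?_, congrArg Prod.fst heq, fun c c' => ?_⟩
  · rwa [show n + 2 = n + 1 + 1 by ring]
  · exact (congrFun₂ (congrArg Prod.snd heq) c c').symm

end P195.Cert
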